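import Vale.Agent.P330.H16.MDefs

/-!
# A small assembler for content programs

`Ins F` are the instructions; `run pub l rs` appends the results of the instructions `l` to the list
`rs` of registers.  A macro `Mac F` gets the current number of registers and an input register, and
gives a list of instructions and a result register; `Is pub env m op` says that the macro computes
the operator `op` on contents, if the constant registers are as in `env`.
-/

namespace Vale.Agent.P330.H16

open Finset

/-- Instructions. -/
inductive Ins (F : Type) where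
  /-- linear combination -/
  | lin (l : List (F × ℕ))
  /-- translation by `e j` -/
  | tr (j i : ℕ)
  /-- multiplication by the bit `j` -/
  | mx (j i : ℕ)
  /-- hard-wired content -/
  | pub (p : ℕ)
  /-- the constant content `∑ x, u x` -/
  | sum (i : ℕ)
  /-- constant register `c` times register `i` -/
  | smul (c i : ℕ)

set_option linter.unusedSectionVars false

variable {κ : ℕ} {F : Type} [Field F]

/-- Value of a linear combination of registers. -/
def linV (rs : List (Ct κ F)) : List (F × ℕ) → Ct κ F
  | [] => fun _ => 0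
  | q :: l => fun x => q.1 * rs.getD q.2 0 x + linV rs l x

/-- The content computed by an instruction. -/
def Ins.ev (pub : ℕ → Ct κ F) (rs : List (Ct κ F)) : Ins F → Ct κ F
  | .lin l => linV rs l
  | .tr j i => H16.tr (e κ j) (rs.getD i 0)
  | .mx j i => fun x => bx j x * rs.getD i 0 x
  | .pub p => pub p
  | .sum i => fun _ => ∑ x, rs.getD i 0 x
  | .smul c i => fun x => rs.getD c 0 0 * rs.getD i 0 x

/-- Running a program. -/
def run (pub : ℕ → Ct κ F) : List (Ins F) → List (Ct κ F) → List (Ct κ F)
  | [], rs => rs
  | i :: l, rs => run pub l (rs ++ [i.ev pub rs])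

/-- Macros. -/
abbrev Mac (F : Type) := ℕ → ℕ → List (Ins F) × ℕ

/-- Register `i` has the content `u`. -/
def Has (rs : List (Ct κ F)) (i : ℕ) (u : Ct κ F) : Prop := rs[i]? = some u

/-- The constant registers `c` of the environment. -/
def EnvOK (env : List (ℕ × F)) (rs : List (Ct κ F)) : Prop :=
  ∀ q ∈ env, Has rs q.1 fun _ => q.2

/-- The program only uses constant registers as scalars (and only older registers). -/
def runOK (pub : ℕ → Ct κ F) : List (Ins F) → List (Ct κ F) → Prop
  | [], _ => True
  | i :: l, rs => (match i with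
      | .lin l => ∀ q ∈ l, q.2 < rs.length
      | .tr _ i => i < rs.length
      | .mx _ i => i < rs.length
      | .pub _ => True
      | .sum i => i < rs.length
      | .smul c i => i < rs.length ∧ ∃ a, Has rs c fun _ => a) ∧ runOK pub l (rs ++ [i.ev pub rs])

/-- The macro `m` computes the operator `op`. -/
def Is (pub : ℕ → Ct κ F) (env : List (ℕ × F)) (m : Mac F) (op : Ct κ F → Ct κ F) : Prop :=
  ∀ rs : List (Ct κ F), EnvOK env rs → ∀ r u, Has rs r u →
    ∃ ex, run pub (m rs.length r).1 rs = rs ++ ex ∧ runOK pub (m rs.length r).1 rs ∧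
      Has (rs ++ ex) (m rs.length r).2 (op u)

section run

variable (pub : ℕ → Ct κ F)

theorem run_append (l l' : List (Ins F)) (rs : List (Ct κ F)) :
    run pub (l ++ l') rs = run pub l' (run pub l rs) := by
  induction l generalizing rs with
  | nil => rfl
  | cons i l ih => simp only [List.cons_append, run, ih]

theorem runOK_append {l l' : List (Ins F)} {rs : List (Ct κ F)} (h : runOK pub l rs)
    (h' : runOK pub l' (run pub l rs)) : runOK pub (l ++ l') rs := by
  induction l generalizing rs with
  | nil => exact h'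
  | cons i l ih => exact ⟨h.1, ih h.2 h'⟩

theorem run_length (l : List (Ins F)) (rs : List (Ct κ F)) :
    (run pub l rs).length = rs.length + l.length := by
  induction l generalizing rs with
  | nil => simp [run]
  | cons i l ih => simp only [run, ih, List.length_append, List.length_cons, List.length_nil]; omega

theorem run_ext (l : List (Ins F)) (rs : List (Ct κ F)) :
    ∃ ex, run pub l rs = rs ++ ex ∧ ex.length = l.length := by
  induction l generalizing rs with
  | nil => exact ⟨[], by simp [run], rfl⟩
  | cons i l ih =>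
    obtain ⟨ex, h, h2⟩ := ih (rs ++ [i.ev pub rs])
    exact ⟨i.ev pub rs :: ex, by simp [run, h], by simp [h2]⟩

end run

theorem Has.append {rs ex : List (Ct κ F)} {i : ℕ} {u : Ct κ F} (h : Has rs i u) :
    Has (rs ++ ex) i u := by
  unfold Has at *
  rw [List.getElem?_append_left]
  · exact h
  · by_contra hc
    rw [List.getElem?_eq_none (not_lt.1 hc)] at h
    exact absurd h (by simp)

theorem Has.getD {rs : List (Ct κ F)} {i : ℕ} {u : Ct κ F} (h : Has rs i u) :
    rs.getD i 0 = u := by
  unfold Has at h
  simp [List.getD, h]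

theorem Has.get {rs : List (Ct κ F)} {i : ℕ} {u : Ct κ F} (h : Has rs i u) :
    rs[i]? = some u := h

theorem Has.lt {rs : List (Ct κ F)} {i : ℕ} {u : Ct κ F} (h : Has rs i u) : i < rs.length := by
  by_contra hc
  unfold Has at h
  rw [List.getElem?_eq_none (not_lt.1 hc)] at h
  exact absurd h (by simp)

theorem Has.unique {rs : List (Ct κ F)} {i : ℕ} {u v : Ct κ F} (h : Has rs i u)
    (h' : Has rs i v) : u = v := by
  unfold Has at *
  rw [h] at h'
  exact Option.some.inj h'

theorem Has.last (rs : List (Ct κ F)) (u : Ct κ F) : Has (rs ++ [u]) rs.length u := by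
  simp [Has]

theorem EnvOK.append {env : List (ℕ × F)} {rs ex : List (Ct κ F)} (h : EnvOK env rs) :
    EnvOK env (rs ++ ex) := fun q hq => (h q hq).append

theorem linV_append {rs ex : List (Ct κ F)} (l : List (F × ℕ)) (h : ∀ q ∈ l, q.2 < rs.length) :
    linV (rs ++ ex) l = linV rs l := by
  induction l with
  | nil => rfl
  | cons q l ih =>
    funext x
    simp only [linV]
    rw [ih fun q hq => h q (List.mem_cons_of_mem _ hq)]
    congr 2
    rw [List.getD, List.getD, List.getElem?_append_left (h q (List.mem_cons_self ..))]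

/-! ### Combinators -/

/-- The identity. -/
def idM : Mac F := fun _ r => ([], r)

/-- First `m`, then `m'`. -/
def comp (m m' : Mac F) : Mac F := fun n r =>
  let a := m n r
  let b := m' (n + a.1.length) a.2
  (a.1 ++ b.1, b.2)

/-- Translation by `e j`. -/
def trM (j : ℕ) : Mac F := fun n r => ([.tr j r], n)

/-- Multiplication by the bit `j`. -/
def mxM (j : ℕ) : Mac F := fun n r => ([.mx j r], n)

/-- Sum over all points. -/
def sumM : Mac F := fun n r => ([.sum r], n)

/-- The constant register `c` times the input. -/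
def smM (c : ℕ) : Mac F := fun n r => ([.smul c r], n)

/-- The codes of several macros, all with the same input, and their result registers. -/
def lcAux : List (F × Mac F) → ℕ → ℕ → List (Ins F) × List (F × ℕ)
  | [], _, _ => ([], [])
  | q :: l, n, r =>
    let a := q.2 n r
    let b := lcAux l (n + a.1.length) r
    (a.1 ++ b.1, (q.1, a.2) :: b.2)

/-- Linear combination of macros. -/
def lc (l : List (F × Mac F)) : Mac F := fun n r =>
  let a := lcAux l n r
  (a.1 ++ [.lin a.2], n + a.1.length)

/-- Iteration over a list. -/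
def iterM (A : ℕ → Mac F) : List ℕ → Mac F
  | [] => idM
  | j :: l => comp (A j) (iterM A l)

/-- Iteration of operators over a list. -/
def opIter (A : ℕ → Ct κ F → Ct κ F) : List ℕ → Ct κ F → Ct κ F
  | [], u => u
  | j :: l, u => opIter A l (A j u)

/-- Linear combination of operators. -/
def opLc : List (F × (Ct κ F → Ct κ F)) → Ct κ F → Ct κ F
  | [], _ => fun _ => 0
  | q :: l, u => fun x => q.1 * q.2 u x + opLc l u x

variable {pub : ℕ → Ct κ F} {env : List (ℕ × F)}

theorem Is.congr {m : Mac F} {op op' : Ct κ F → Ct κ F} (h : Is pub env m op)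
    (h2 : ∀ u, op u = op' u) : Is pub env m op' := by
  intro rs he r u hu
  obtain ⟨ex, h3, h3', h4⟩ := h rs he r u hu
  exact ⟨ex, h3, h3', h2 u ▸ h4⟩

theorem Is.id : Is pub env (idM : Mac F) fun u => u := fun rs _ r u hu =>
  ⟨[], by simp [idM, run], trivial, by simpa [idM] using hu⟩

theorem Is.comp {m m' : Mac F} {op op' : Ct κ F → Ct κ F} (h : Is pub env m op)
    (h' : Is pub env m' op') : Is pub env (H16.comp m m') fun u => op' (op u) := by
  intro rs he r u hu
  obtain ⟨ex, h1, h1', h2⟩ := h rs he r u hu
  have hl : (rs ++ ex).length = rs.length + (m rs.length r).1.length := by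
    rw [← h1, run_length]
  obtain ⟨ex', h3, h3', h4⟩ := h' (rs ++ ex) he.append _ _ h2
  refine ⟨ex ++ ex', ?_, ?_, ?_⟩
  · simp only [H16.comp, run_append, h1]
    rw [hl] at h3
    rw [h3, List.append_assoc]
  · simp only [H16.comp]
    rw [hl] at h3'
    exact runOK_append pub h1' (by rw [h1]; exact h3')
  · simp only [H16.comp]
    rw [hl] at h4
    rw [← List.append_assoc]
    exact h4

theorem Is.tr (j : ℕ) : Is pub env (trM j : Mac F) fun u => H16.tr (e κ j) u := fun rs _ r u hu =>
  ⟨[H16.tr (e κ j) u], by simp [trM, run, Ins.ev, hu.get], ⟨hu.lt, trivial⟩,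
    Has.last _ _⟩

theorem Is.mx (j : ℕ) : Is pub env (mxM j : Mac F) fun u x => bx j x * u x := fun rs _ r u hu =>
  ⟨[fun x => bx j x * u x], by simp [mxM, run, Ins.ev, hu.get], ⟨hu.lt, trivial⟩,
    Has.last _ _⟩

theorem Is.sum : Is pub env (sumM : Mac F) fun u _ => ∑ x, u x := fun rs _ r u hu =>
  ⟨[fun _ => ∑ x, u x], by simp [sumM, run, Ins.ev, hu.get], ⟨hu.lt, trivial⟩,
    Has.last _ _⟩

theorem Is.sm {c : ℕ} {a : F} (hc : (c, a) ∈ env) :
    Is pub env (smM c : Mac F) fun u x => a * u x := fun rs he r u hu =>
  ⟨[fun x => a * u x], by simp [smM, run, Ins.ev, hu.get, (he _ hc).get],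
    ⟨⟨hu.lt, a, he _ hc⟩, trivial⟩, Has.last _ _⟩

theorem lcAux_spec {l : List (F × Mac F)} {ops : List (F × (Ct κ F → Ct κ F))}
    (h : List.Forall₂ (fun q p => q.1 = p.1 ∧ Is pub env q.2 p.2) l ops) (rs : List (Ct κ F))
    (he : EnvOK env rs) (r : ℕ) (u : Ct κ F) (hu : Has rs r u) :
    ∃ ex, run pub (lcAux l rs.length r).1 rs = rs ++ ex ∧ runOK pub (lcAux l rs.length r).1 rs ∧
      (∀ q ∈ (lcAux l rs.length r).2, q.2 < (rs ++ ex).length) ∧
      linV (rs ++ ex) (lcAux l rs.length r).2 = opLc ops u := by
  induction h generalizing rs with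
  | nil => exact ⟨[], by simp [lcAux, run], trivial, by simp [lcAux], rfl⟩
  | @cons q p l ops hq hl ih =>
    obtain ⟨hq1, hq2⟩ := hq
    obtain ⟨ex, h1, h1', h2⟩ := hq2 rs he r u hu
    have hlen : (rs ++ ex).length = rs.length + (q.2 rs.length r).1.length := by
      rw [← h1, run_length]
    obtain ⟨ex', h3, h3', h4, h5⟩ := ih (rs ++ ex) he.append hu.append
    rw [hlen] at h3 h3' h4 h5
    refine ⟨ex ++ ex', ?_, ?_, ?_, ?_⟩
    · simp only [lcAux, run_append, h1]
      rw [h3, List.append_assoc]
    · exact runOK_append pub h1' (by rw [h1]; exact h3')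
    · simp only [lcAux, ← List.append_assoc]
      intro q' hq'
      rcases List.mem_cons.1 hq' with rfl | hq'
      · exact h2.append.lt
      · exact h4 q' hq'
    · simp only [lcAux, ← List.append_assoc]
      funext x
      simp only [linV, opLc]
      rw [h5, h2.append.getD, hq1]

theorem Is.lc {l : List (F × Mac F)} {ops : List (F × (Ct κ F → Ct κ F))}
    (h : List.Forall₂ (fun q p => q.1 = p.1 ∧ Is pub env q.2 p.2) l ops) :
    Is pub env (H16.lc l) (opLc ops) := by
  intro rs he r u hu
  obtain ⟨ex, h1, h1', h2, h3⟩ := lcAux_spec h rs he r u hu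
  have hlen : (rs ++ ex).length = rs.length + (lcAux l rs.length r).1.length := by
    rw [← h1, run_length]
  refine ⟨ex ++ [opLc ops u], ?_, ?_, ?_⟩
  · simp only [H16.lc, run_append, h1, run, Ins.ev, h3, List.append_assoc]
  · exact runOK_append pub h1' (by rw [h1]; exact ⟨h2, trivial⟩)
  · simp only [H16.lc]
    rw [← hlen, ← List.append_assoc]
    exact Has.last _ _

theorem Is.iter {A : ℕ → Mac F} {O : ℕ → Ct κ F → Ct κ F} {l : List ℕ}
    (h : ∀ j ∈ l, Is pub env (A j) (O j)) : Is pub env (iterM A l) (opIter O l) := by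
  induction l with
  | nil => exact Is.id
  | cons j l ih =>
    exact (h j (List.mem_cons_self ..)).comp (ih fun i hi => h i (List.mem_cons_of_mem _ hi))

end Vale.Agent.P330.H16
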