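import Mathlib.Data.Nat.Bitwise
import Mathlib.Data.ZMod.Basic
import Mathlib.Algebra.BigOperators.Pi
import Mathlib.LinearAlgebra.Span.Defs
import Mathlib.Tactic

/-!
# The content machine: definitions

Contents are functions `J → F` on `J = Fin κ → ZMod 2`; the point with the number `p < 2 ^ κ` has
the bits of `p` as coordinates.  `H` is the set of the points with numbers `< 2 ^ k` (slots).

* `RSys`: the normalised subspace polynomials `s j` and the spaces `RS d` of the evaluations of the
  polynomials of degree `< d`.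
* `MP`: the parameters of the machine (slot program, routing network).
* `Cont`: tuples of contents; `MP.cont` the contents of a state; `MP.Chk` the static checks;
  `MP.stepC` the step map on contents.
-/

namespace Vale.Agent.P330.H16

open Finset

/-- The points. -/
abbrev V2 (κ : ℕ) := Fin κ → ZMod 2

/-- Contents. -/
abbrev Ct (κ : ℕ) (F : Type) := V2 κ → F

variable {κ : ℕ} {F : Type}

/-- The point with the number `p` (bits of `p`). -/
def pt (κ : ℕ) (p : ℕ) : V2 κ := fun j => if p.testBit j then 1 else 0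

/-- The number of a point. -/
def num (x : V2 κ) : ℕ := ∑ j : Fin κ, if x j = 1 then 2 ^ (j : ℕ) else 0

/-- The unit vector `e j` (zero for `j ≥ κ`). -/
def e (κ : ℕ) (j : ℕ) : V2 κ := fun i => if (i : ℕ) = j then 1 else 0

/-- The bit `j` of the point `x`, as an element of `F` (zero for `j ≥ κ`). -/
def bx [Zero F] [One F] (j : ℕ) (x : V2 κ) : F :=
  if h : j < κ then (if x ⟨j, h⟩ = 1 then 1 else 0) else 0

/-- Translation by `z`. -/
def tr (z : V2 κ) (u : Ct κ F) : Ct κ F := fun x => u (x + z)

/-- The part of `u` on the points with numbers `< h`. -/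
def pre [Zero F] (h : ℕ) (u : Ct κ F) : Ct κ F := fun x => if num x < h then u x else 0

/-- The part of `u` on the points whose number has the property `m`. -/
def msk [Zero F] (m : ℕ → Bool) (u : Ct κ F) : Ct κ F := fun x => if m (num x) then u x else 0

/-- The data word with the values `g` on the slots. -/
def dw [Zero F] (κ k : ℕ) (g : ℕ → F) : Ct κ F := fun x => if num x < 2 ^ k then g (num x) else 0

/-- Normalised subspace polynomials and Reed-Solomon spaces. -/
structure RSys (κ : ℕ) (F : Type) [Field F] where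
  /-- the normalised subspace polynomials, as functions on the points -/
  s : ℕ → V2 κ → F
  /-- evaluations of the polynomials of degree `< d` -/
  RS : ℕ → Submodule F (Ct κ F)
  s_add : ∀ j x y, s j (x + y) = s j x + s j y
  s_self : ∀ j < κ, s j (e κ j) = 1
  s_low : ∀ i j, i < j → j < κ → s j (e κ i) = 0
  s_RS : ∀ j < κ, s j ∈ RS (2 ^ j + 1)
  one_RS : (fun _ => 1) ∈ RS 1
  mono : ∀ a b, a ≤ b → RS a ≤ RS b
  mul : ∀ a b u v, u ∈ RS (a + 1) → v ∈ RS (b + 1) → (fun x => u x * v x) ∈ RS (a + b + 1)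
  zeros : ∀ d (u : Ct κ F), u ∈ RS d → d ≤ 2 ^ κ → u ≠ 0 →
    open Classical in (univ.filter fun x => u x = 0).card < d

namespace RSys

variable [Field F] (R : RSys κ F)

/-- The Lagrange polynomial of the slot `p`. -/
def L (k p : ℕ) : Ct κ F := fun x => ∏ j ∈ range k, (1 + R.s j x + R.s j (pt κ p))

/-- Low degree extension of the data `g`. -/
def lde (k : ℕ) (g : ℕ → F) : Ct κ F := fun x => ∑ p ∈ range (2 ^ k), g p * R.L k p x

/-- Low degree extension of the restriction of a content to `H`. -/
def ldeW (k : ℕ) (u : Ct κ F) : Ct κ F := R.lde k fun p => u (pt κ p)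

end RSys

/-- Gate slots. -/
def isNand (x : ℕ) : Bool := decide (x % 4 = 2)

/-- Parameters of the machine.  Slots are the numbers `< 2 ^ k`; slot `4 c + j` is the port `j` of
the cell `c`. -/
structure MP where
  k : ℕ
  κ : ℕ
  /-- number of input cells -/
  n : ℕ
  /-- number of stages of the routing network -/
  L : ℕ
  /-- direction of the stages -/
  dir : ℕ → ℕ
  /-- switch words -/
  sw : ℕ → ℕ → Bool
  /-- copy slots read this slot -/
  prev : ℕ → ℕ
  /-- the output bit `i` of the circuit `z` (`false`: `S`, `true`: `P`) is in the slot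
  `4 * i ^^^ off z` -/
  off : Bool → ℕ

namespace MP

variable (M : MP)

/-- Input slots. -/
def isIn (x : ℕ) : Bool := decide (x % 4 = 0 ∧ x < 4 * M.n)

/-- Copy slots. -/
def isCopy (x : ℕ) : Bool := decide (x % 4 = 1 ∨ (x % 4 = 0 ∧ 4 * M.n ≤ x))

/-- Stage of the routing network. -/
def stg {α : Type} (s : ℕ) (w : ℕ → α) : ℕ → α :=
  fun x => if M.sw s x then w (x ^^^ 2 ^ M.dir s) else w x

/-- The word `w` after `s` stages. -/
def rt {α : Type} (w : ℕ → α) : ℕ → ℕ → α
  | 0 => w
  | s + 1 => M.stg s (rt w s)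

/-- What the static theorem needs. -/
structure Good : Prop where
  hk : 2 ≤ M.k
  hκ : M.k + 3 ≤ M.κ
  hn : 0 < M.n
  hnk : 4 * M.n ≤ 2 ^ M.k
  dir_lt : ∀ s < M.L, M.dir s < M.k
  sw_symm : ∀ s < M.L, ∀ x < 2 ^ M.k, M.sw s (x ^^^ 2 ^ M.dir s) = M.sw s x
  prev_lt : ∀ x < 2 ^ M.k, M.isCopy x → M.prev x < x
  /-- the network brings the content of `prev x` to the copy slot `x` -/
  route : ∀ (α : Type) (w : ℕ → α) (x : ℕ), x < 2 ^ M.k → M.isCopy x →
    M.rt w M.L x = w (M.prev x)
  off_lt : ∀ z, M.off z < 2 ^ M.k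
  /-- the second input of an input cell is a copy of the first one -/
  prev_inp : ∀ i < M.n, M.prev (4 * i + 1) = 4 * i

/-- The value of slot `x` for the input bits `inp`. -/
def val (inp : ℕ → Bool) (x : ℕ) : Bool :=
  if M.isIn x then inp (x / 4)
  else if M.isCopy x then (if _h : M.prev x < x then val inp (M.prev x) else false)
  else if x % 4 = 2 then !(val inp (x - 2) && val inp (x - 1))
  else false
termination_by x
decreasing_by
  all_goals first
    | assumption
    | (have : x % 4 = 2 := by assumption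
       omega)

/-- A state: bank `z` is full and free with the input `x`; bank `!z` is filled up to `t` and copies
its input from the outputs of bank `z`. -/
@[ext] structure State where
  z : Bool
  x : ℕ → Bool
  t : ℕ

/-- The input of bank `!z`. -/
def nx (z : Bool) (x : ℕ → Bool) (i : ℕ) : Bool := M.val x ((4 * i) ^^^ M.off z)

/-- The data of bank `b` in a state. -/
def bank (s : State) (b : Bool) (y : ℕ) : Bool :=
  if b = s.z then M.val s.x y else (decide (y < s.t) && M.val (M.nx s.z s.x) y)

/-- The step of states. -/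
def stepS (dir : Bool) (s : State) : State :=
  if s.z = dir then
    (if s.t = 2 ^ M.k then ⟨!s.z, M.nx s.z s.x, s.t⟩ else ⟨s.z, s.x, s.t + 1⟩)
  else
    (if s.t = 0 then ⟨!s.z, s.x, s.t⟩ else ⟨s.z, s.x, s.t - 1⟩)

end MP

/-- Truth values in `F`. -/
def bF (F : Type) [Zero F] [One F] (b : Bool) : F := if b then 1 else 0

/-- Tuples of base contents: the bit `z`, the number `t`, and for the two banks the data word, the
products of the stages and the product of the gates. -/
@[ext] structure Cont (κ : ℕ) (F : Type) where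
  z : Bool
  t : ℕ
  w : Bool → Ct κ F
  P : Bool → ℕ → Ct κ F
  Q : Bool → Ct κ F

namespace MP

variable (M : MP) [Field F] (R : RSys M.κ F)

/-- First inputs of the gates, at the gate slots. -/
def inA (w : Ct M.κ F) : Ct M.κ F := msk isNand (tr (pt M.κ 2) w)

/-- Second inputs of the gates, at the gate slots. -/
def inB (w : Ct M.κ F) : Ct M.κ F := msk isNand (tr (pt M.κ 3) w)

/-- The extension of the switch word of stage `s`. -/
def swE (s : ℕ) : Ct M.κ F := R.lde M.k fun x => bF F (M.sw s x)

/-- The sequence of the routed words, computed from the products. -/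
def fw (w : Ct M.κ F) (P : ℕ → Ct M.κ F) : ℕ → Ct M.κ F
  | 0 => w
  | s + 1 => fun x => fw w P s x + pre (2 ^ M.k) (P s) x

/-- What the product of stage `s` has to be. -/
def prodP (w : Ct M.κ F) (P : ℕ → Ct M.κ F) (s : ℕ) : Ct M.κ F := fun x =>
  M.swE R s x * R.ldeW M.k (fun y => M.fw w P s y + tr (e M.κ (M.dir s)) (M.fw w P s) y) x

/-- What the product of the gates has to be. -/
def prodQ (w : Ct M.κ F) : Ct M.κ F := fun x =>
  R.ldeW M.k (M.inA w) x * R.ldeW M.k (M.inB w) x

/-- The contents of a state. -/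
def cont (s : State) : Cont M.κ F where
  z := s.z
  t := s.t
  w b := dw M.κ M.k fun y => bF F (M.bank s b y)
  P b i := fun x => if i < M.L then M.swE R i x *
    R.lde M.k (fun p => M.rt (fun y => bF F (M.bank s b y)) i p +
      M.rt (fun y => bF F (M.bank s b y)) i (p ^^^ 2 ^ M.dir i)) x else 0
  Q b := fun x => R.lde M.k (fun p => if p % 4 = 2 then bF F (M.bank s b (p ^^^ 2)) else 0) x *
    R.lde M.k (fun p => if p % 4 = 2 then bF F (M.bank s b (p ^^^ 3)) else 0) x

/-- The height of bank `b`. -/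
def ht (c : Cont M.κ F) (b : Bool) : ℕ := if b = c.z then 2 ^ M.k else c.t

/-- The right hand side of the rule of the slots of bank `b`, for the content `u` at the input
slots. -/
def rhs (c : Cont M.κ F) (b : Bool) (u : Ct M.κ F) : Ct M.κ F := fun x =>
  msk M.isIn u x + msk M.isCopy (M.fw (c.w b) (c.P b) M.L) x +
    msk isNand (fun y => 1 + pre (2 ^ M.k) (c.Q b) y) x

/-- The content at the input slots of bank `b`. -/
def inp (c : Cont M.κ F) (b : Bool) : Ct M.κ F :=
  if b = c.z then c.w b else tr (pt M.κ (M.off c.z)) (c.w c.z)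

/-- The fraction of the points where `u` and `v` differ is at most `1/10`. -/
def Near {κ : ℕ} {F : Type} (u v : Ct κ F) : Prop :=
  open Classical in 10 * (univ.filter fun x => u x ≠ v x).card ≤ 2 ^ κ

/-- The static checks. -/
structure Chk (c : Cont M.κ F) : Prop where
  t_le : c.t ≤ 2 ^ M.k
  supp : ∀ b, pre (2 ^ M.k) (c.w b) = c.w b
  P_RS : ∀ b, ∀ s < M.L, c.P b s ∈ R.RS (2 ^ (M.k + 1))
  P_eq : ∀ b, ∀ s < M.L, Near (c.P b s) (M.prodP R (c.w b) (c.P b) s)
  P_zero : ∀ b s, M.L ≤ s → c.P b s = 0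
  Q_RS : ∀ b, c.Q b ∈ R.RS (2 ^ (M.k + 1))
  Q_eq : ∀ b, Near (c.Q b) (M.prodQ R (c.w b))
  rule : ∀ b, c.w b = pre (M.ht c b) (M.rhs c b (M.inp c b))
  bool : msk (fun x => isNand x && decide (x < 4 * M.n))
    (fun x => 1 + c.w c.z x + tr (pt M.κ 2) (c.w c.z) x) = 0

/-- The position of the content of slot `a` after `s` stages. -/
def pos (a : ℕ) : ℕ → ℕ
  | 0 => a
  | s + 1 => if M.sw s (pos a s) then pos a s ^^^ 2 ^ M.dir s else pos a s

/-- The contents of bank `b` when the value `v` is added in slot `a`. -/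
def addS (c : Cont M.κ F) (b : Bool) (a : ℕ) (v : F) : Cont M.κ F where
  z := c.z
  t := c.t
  w b' := if b' = b then fun x => c.w b x + v * (if num x = a then 1 else 0) else c.w b'
  P b' s := if b' = b ∧ s < M.L then fun x => c.P b s x + v * (M.swE R s x *
      (R.L M.k (M.pos a s) x + R.L M.k (M.pos a s ^^^ 2 ^ M.dir s) x)) else c.P b' s
  Q b' := if b' = b then fun x => c.Q b x + v *
      (if a % 4 = 0 then R.L M.k (a ^^^ 2) x * R.ldeW M.k (M.inB (c.w b)) x
      else if a % 4 = 1 then R.L M.k (a ^^^ 3) x * R.ldeW M.k (M.inA (c.w b)) x else 0)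
    else c.Q b'

/-- The value which the slot `a` of the bank `!z` gets by the rule. -/
def vnext (c : Cont M.κ F) (a : ℕ) : F := M.rhs c (!c.z) (M.inp c (!c.z)) (pt M.κ a)

/-- The step of contents. -/
def stepC (dir : Bool) (c : Cont M.κ F) : Cont M.κ F :=
  if c.z = dir then
    (if c.t = 2 ^ M.k then { c with z := !c.z }
    else { M.addS R c (!c.z) c.t (M.vnext c c.t) with t := c.t + 1 })
  else
    (if c.t = 0 then ⟨!c.z, c.t, fun b => c.w (!b), fun b => c.P (!b), fun b => c.Q (!b)⟩
    else { M.addS R c (!c.z) (c.t - 1) (M.vnext c (c.t - 1)) with t := c.t - 1 })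

/-- Valid contents. -/
def ValidC (c : Cont M.κ F) : Prop :=
  ∃ s : State, s.t ≤ 2 ^ M.k ∧ (∀ i, M.n ≤ i → s.x i = false) ∧ c = M.cont R s

/-- **[STAT]**: the static checks hold exactly for the contents of states. -/
def Stat : Prop := ∀ c : Cont M.κ F, M.Chk R c → M.ValidC R c

/-- **[STAT']**: completeness of the checks (the products are exact). -/
def StatC : Prop := ∀ c : Cont M.κ F, M.ValidC R c → M.Chk R c ∧
  (∀ b, ∀ s < M.L, c.P b s = M.prodP R (c.w b) (c.P b) s) ∧ ∀ b, c.Q b = M.prodQ R (c.w b)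

/-- **[UPD]**: the step of contents. -/
structure Upd : Prop where
  fill : ∀ s : State, s.t < 2 ^ M.k → M.stepC R s.z (M.cont R s) = M.cont R ⟨s.z, s.x, s.t + 1⟩
  erase : ∀ s : State, 0 < s.t → s.t ≤ 2 ^ M.k →
    M.stepC R (!s.z) (M.cont R s) = M.cont R ⟨s.z, s.x, s.t - 1⟩
  swap : ∀ s : State, s.t = 0 → M.stepC R (!s.z) (M.cont R s) = M.cont R ⟨!s.z, s.x, 0⟩
  flip : ∀ s : State, s.t = 2 ^ M.k →
    M.stepC R s.z (M.cont R s) = { M.cont R s with z := !s.z }
  /-- the flipped contents are valid iff the other circuit leads back to the input -/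
  flip_valid : ∀ s : State, s.t = 2 ^ M.k → (∀ i, M.n ≤ i → s.x i = false) →
    (M.ValidC R { M.cont R s with z := !s.z } ↔
      ∀ i < M.n, M.nx (!s.z) (M.nx s.z s.x) i = s.x i)
  flip_eq : ∀ s : State, s.t = 2 ^ M.k → (∀ i < M.n, M.nx (!s.z) (M.nx s.z s.x) i = s.x i) →
    ({ M.cont R s with z := !s.z } : Cont M.κ F) =
      M.cont R ⟨!s.z, fun i => decide (i < M.n) && M.nx s.z s.x i, 2 ^ M.k⟩
  /-- the contents determine the state -/
  inj : ∀ s s' : State, s.t ≤ 2 ^ M.k → s'.t ≤ 2 ^ M.k → (∀ i, M.n ≤ i → s.x i = false) →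
    (∀ i, M.n ≤ i → s'.x i = false) → M.cont R s = M.cont R s' → s = s'

end MP

end Vale.Agent.P330.H16
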