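import Vale.Agent.P330.H16.Names

/-!
# The content program

`Nm` are the names of the registers, `prog` the list of commands.
-/

set_option linter.constructorNameAsVariable false

namespace Vale.Agent.P330.H16

open Finset

/-- The parameters of the program. -/
structure PP (F : Type) where
  k : ℕ
  κ : ℕ
  n : ℕ
  L : ℕ
  dir : ℕ → ℕ
  /-- `sc j i` is the value of the subspace polynomial `j` at the unit vector `i` -/
  sc : ℕ → ℕ → F

namespace PP

variable {F : Type} [Field F] (p : PP F)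

/-- A command. -/
abbrev C (F : Type) := Cmd Nm (Kd F)

/-- Linear combination with coefficients `1`. -/
def add (o : Nm) (l : List Nm) : C F := ⟨o, .lin (l.map fun _ => 1), l⟩

/-- The bits of the slot `a` of the mode `m`. -/
def ab (m : Bool) (j : ℕ) : Nm := if m then .tm j else .tc j

/-- Scalars: constants and the bit `z`. -/
def prS1 : List (C F) :=
  [⟨.one, .pub 0, []⟩, ⟨.zero, .lin [], []⟩, ⟨.zd, .un .rd0, [.z]⟩, ⟨.zc, .un .sum, [.zd]⟩,
   add (.zb true) [.zc], add (.zb false) [.one, .zc], add (.car 0) [.one], add (.bor 0) [.one],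
   ⟨.zz, .smul, [.zc, .zc]⟩]

/-- Scalars: the bits of `t`. -/
def prS2 : List (C F) :=
  (List.range (p.k + 1)).flatMap fun j =>
    [⟨.td j, .un .rd0, [.t j]⟩, ⟨.tc j, .un .sum, [.td j]⟩, add (.tn j) [.one, .tc j]]

/-- Scalars: `t + 1`, `t - 1`, heights. -/
def prS3 : List (C F) :=
  (List.range (p.k + 1)).flatMap fun j =>
    [⟨.car (j + 1), .smul, [.tc j, .car j]⟩, add (.tp j) [.tc j, .car j],
     ⟨.bor (j + 1), .smul, [.tn j, .bor j]⟩, add (.tm j) [.tc j, .bor j],
     ⟨.hx false j, .smul, [.zb true, .tc j]⟩, ⟨.hx true j, .smul, [.zb false, .tc j]⟩,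
     add (.hb false j) (if j = p.k then [.hx false j, .zb false] else [.hx false j]),
     add (.hb true j) (if j = p.k then [.hx true j, .zb true] else [.hx true j]),
     add (.pb j) (if (4 * p.n).testBit j then [.one] else []),
     ⟨.tt j, .smul, [.tc j, .tc j]⟩, ⟨.tk j, .smul, [.tc p.k, .tc j]⟩]

/-- Scalars: `[t ≠ 0]`, and the hard-wired words. -/
def prS4 : List (C F) :=
  add .t0n [.one, .bor (p.k + 1)] ::
    (List.range p.L).flatMap fun s => [⟨.sw s, .pub (s + 1), []⟩]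

/-- A stage of the routing of bank `b`. -/
def prR1 (b : Bool) (s : ℕ) : List (C F) :=
  [⟨.T b s, .un (.tr (p.dir s)), [.f b s]⟩, add (.Y b s) [.f b s, .T b s],
   ⟨.LY b s, .un .lde, [.Y b s]⟩, ⟨.hP b s, .un .hh, [.P b s]⟩,
   add (.f b (s + 1)) [.f b s, .hP b s], ⟨.mP b s, .un .inv, [.P b s]⟩]

/-- The membership test of a stage. -/
def prR2 (b : Bool) (s : ℕ) : List (C F) :=
  (List.range p.κ).flatMap fun j => [⟨.nP b s j, .un (.mx j), [.mP b s]⟩]

/-- Routing of bank `b`. -/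
def prR (b : Bool) : List (C F) :=
  add (.f b 0) [.w b] :: (List.range p.L).flatMap fun s => p.prR1 b s ++ p.prR2 b s

/-- Gates of bank `b`. -/
def prG1 (b : Bool) : List (C F) :=
  [⟨.A1 b, .un (.tr 1), [.w b]⟩, ⟨.A2 b, .un .nand, [.A1 b]⟩, ⟨.LA b, .un .lde, [.A2 b]⟩,
   ⟨.B1 b, .un (.tr 0), [.A1 b]⟩, ⟨.B2 b, .un .nand, [.B1 b]⟩, ⟨.LB b, .un .lde, [.B2 b]⟩,
   ⟨.hQ b, .un .hh, [.Q b]⟩, ⟨.mQ b, .un .inv, [.Q b]⟩]

/-- The membership test of the gates. -/
def prG2 (b : Bool) : List (C F) :=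
  (List.range p.κ).flatMap fun j => [⟨.nQ b j, .un (.mx j), [.mQ b]⟩]

/-- The rule of bank `b`. -/
def prV (b : Bool) : List (C F) :=
  [⟨.xo b, .un (.off (!b)), [.w (!b)]⟩, ⟨.i1 b, .smul, [.zb b, .w b]⟩,
   ⟨.i2 b, .smul, [.zb (!b), .xo b]⟩, add (.v1 b) [.i1 b, .i2 b, .f b p.L],
   ⟨.v2 b, .un .k0, [.v1 b]⟩,
   ⟨.v3 b, .un .pre, .v2 b :: (List.range (p.k + 1)).map .pb⟩,
   ⟨.v4 b, .un .k0, [.f b p.L]⟩, ⟨.v5 b, .un .k1, [.f b p.L]⟩, add (.v6 b) [.one, .hQ b],
   ⟨.v7 b, .un .nand, [.v6 b]⟩, add (.V b) [.v3 b, .v4 b, .v5 b, .v7 b],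
   ⟨.pV b, .un .pre, .V b :: (List.range (p.k + 1)).map (.hb b)⟩, ⟨.hw b, .un .hh, [.w b]⟩,
   add (.c1 b) [.one, .w b, .A1 b], ⟨.c2 b, .un .nand, [.c1 b]⟩,
   ⟨.c3 b, .un .pre, .c2 b :: (List.range (p.k + 1)).map .pb⟩, ⟨.c4 b, .smul, [.zb b, .c3 b]⟩]

/-- The bits of the position of the packet. -/
def prU1 (m : Bool) (s : ℕ) : List (C F) :=
  (List.range p.k).flatMap fun i =>
    [⟨.px m s i, .un (.mx i), [.g m s]⟩, ⟨.pi m s i, .un .sum, [.px m s i]⟩]

/-- The values of the subspace polynomials at the position of the packet. -/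
def prU2 (m : Bool) (s : ℕ) : List (C F) :=
  (List.range p.k).flatMap fun j =>
    [⟨.S m s j, .lin ((List.range p.k).map (p.sc j)), (List.range p.k).map (.pi m s)⟩,
     ⟨.S' m s j, .lin [1, p.sc j (p.dir s)], [.S m s j, .one]⟩]

/-- The word of the packet and the next packet. -/
def prU3 (m : Bool) (s : ℕ) : List (C F) :=
  [⟨.u1 m s, .un .LL, .sw s :: (List.range p.k).map (.S m s)⟩,
   ⟨.u2 m s, .un .LL, .sw s :: (List.range p.k).map (.S' m s)⟩,
   add (.U m s) [.u1 m s, .u2 m s], ⟨.hU m s, .un .hh, [.U m s]⟩,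
   add (.g m (s + 1)) [.g m s, .hU m s]]

/-- A stage of the packets. -/
def prUs (m : Bool) (s : ℕ) : List (C F) := p.prU1 m s ++ (p.prU2 m s ++ p.prU3 m s)

/-- The values of the subspace polynomials at the gate slots of the packet. -/
def prA (m : Bool) : List (C F) :=
  (List.range p.k).flatMap fun j =>
    [⟨.SA m j, .lin (p.sc j 1 :: (List.range p.k).map (p.sc j)),
        .one :: (List.range p.k).map (ab m)⟩,
     ⟨.SB m j, .lin [1, p.sc j 0], [.SA m j, .one]⟩]

/-- The kind of the slot of the packet. -/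
def prE (m : Bool) : List (C F) :=
  [add (.an m 0) [.one, ab m 0], add (.an m 1) [.one, ab m 1],
   ⟨.e0 m, .smul, [.an m 0, .an m 1]⟩, ⟨.e1 m, .smul, [.an m 1, ab m 0]⟩]

/-- The first packet. -/
def prD (m : Bool) : List (C F) :=
  [⟨.g m 0, .un .ch, .one :: (List.range p.k).map (ab m)⟩]

/-- Packets of the mode `m`. -/
def prU (m : Bool) : List (C F) :=
  p.prD m ++ ((List.range p.L).flatMap (p.prUs m) ++ (p.prA m ++ prE m))

/-- Updates of bank `b` in the mode `m`: the data word. -/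
def prN1 (m b : Bool) : List (C F) :=
  [⟨.rv m b, .un .ch, .V b :: (List.range p.k).map (ab m)⟩, ⟨.v m b, .un .sum, [.rv m b]⟩,
   ⟨.wd m b, .smul, [.v m b, .g m 0]⟩, add (.wn m b) [.w b, .wd m b]]

/-- Updates of bank `b` in the mode `m`: the routing products. -/
def prN2 (m b : Bool) : List (C F) :=
  (List.range p.L).flatMap fun s =>
    [⟨.Pd m b s, .smul, [.v m b, .U m s]⟩, add (.Pn m b s) [.P b s, .Pd m b s]]

/-- Updates of bank `b` in the mode `m`: the product of the gates. -/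
def prN3 (m b : Bool) : List (C F) :=
  [⟨.q1 m b, .un .LL, .LB b :: (List.range p.k).map (.SA m)⟩,
   ⟨.q2 m b, .un .LL, .LA b :: (List.range p.k).map (.SB m)⟩,
   ⟨.q3 m b, .smul, [.e0 m, .q1 m b]⟩, ⟨.q4 m b, .smul, [.e1 m, .q2 m b]⟩,
   add (.q5 m b) [.q3 m b, .q4 m b], ⟨.q6 m b, .smul, [.v m b, .q5 m b]⟩,
   add (.Qn m b) [.Q b, .q6 m b]]

/-- Updates of bank `b` in the mode `m`. -/
def prN (m b : Bool) : List (C F) := p.prN1 m b ++ (p.prN2 m b ++ p.prN3 m b)

/-- Flags of the direction `d`. -/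
def prF (d : Bool) : List (C F) :=
  [⟨.cf d, .smul, [.zb d, .tn p.k]⟩, ⟨.cg d, .smul, [.zb d, .tc p.k]⟩,
   ⟨.ce d, .smul, [.zb (!d), .t0n]⟩, ⟨.cs d, .smul, [.zb (!d), .bor (p.k + 1)]⟩,
   add (.cm d d) [.zb d], add (.cm d (!d)) [.cg d, .ce d], add (.cc d d) [.ce d],
   add (.cc d (!d)) [.cf d], add (.cgs d) [.cg d, .cs d], add (.oz d) [.zc, .cgs d]]

/-- Outputs of the direction `d`: the number `t`. -/
def prT (d : Bool) : List (C F) :=
  (List.range (p.k + 1)).flatMap fun j =>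
    [⟨.x1 d j, .smul, [.cf d, .tp j]⟩, ⟨.x2 d j, .smul, [.cgs d, .tc j]⟩,
     ⟨.x3 d j, .smul, [.ce d, .tm j]⟩, add (.ot d j) [.x1 d j, .x2 d j, .x3 d j]]

/-- Outputs of the direction `d`: bank `b`, data word and product of the gates. -/
def prB1 (d b : Bool) : List (C F) :=
  [⟨.w1 d b, .smul, [.cm d b, .w b]⟩, ⟨.w2 d b, .smul, [.cc d b, .wn (b == d) b]⟩,
   ⟨.w3 d b, .smul, [.cs d, .w (!b)]⟩, add (.ow d b) [.w1 d b, .w2 d b, .w3 d b],
   ⟨.Q1 d b, .smul, [.cm d b, .Q b]⟩, ⟨.Q2 d b, .smul, [.cc d b, .Qn (b == d) b]⟩,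
   ⟨.Q3 d b, .smul, [.cs d, .Q (!b)]⟩, add (.oQ d b) [.Q1 d b, .Q2 d b, .Q3 d b]]

/-- Outputs of the direction `d`: bank `b`, routing products. -/
def prB2 (d b : Bool) : List (C F) :=
  (List.range p.L).flatMap fun s =>
    [⟨.P1 d b s, .smul, [.cm d b, .P b s]⟩, ⟨.P2 d b s, .smul, [.cc d b, .Pn (b == d) b s]⟩,
     ⟨.P3 d b s, .smul, [.cs d, .P (!b) s]⟩, add (.oP d b s) [.P1 d b s, .P2 d b s, .P3 d b s]]

/-- The segments of the program. -/
def seg : ℕ → List (C F)
  | 0 => prS1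
  | 1 => p.prS2
  | 2 => p.prS3
  | 3 => p.prS4
  | 4 => p.prR false
  | 5 => p.prR true
  | 6 => prG1 false
  | 7 => prG1 true
  | 8 => p.prG2 false
  | 9 => p.prG2 true
  | 10 => p.prV false
  | 11 => p.prV true
  | 12 => p.prU false
  | 13 => p.prU true
  | 14 => p.prN false false
  | 15 => p.prN false true
  | 16 => p.prN true false
  | 17 => p.prN true true
  | 18 => p.prF false
  | 19 => p.prF true
  | 20 => p.prT false
  | 21 => p.prT true
  | 22 => prB1 false false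
  | 23 => prB1 false true
  | 24 => prB1 true false
  | 25 => prB1 true true
  | 26 => p.prB2 false false
  | 27 => p.prB2 false true
  | 28 => p.prB2 true false
  | 29 => p.prB2 true true
  | _ => []

/-- The program. -/
def prog : List (C F) := (List.range 30).flatMap p.seg

/-- The names of a tuple of base contents: the bit `z`, the bits of `t`, the data words, the
routing products, the gate products. -/
def tup (z : Nm) (t : ℕ → Nm) (w : Bool → Nm) (P : Bool → ℕ → Nm) (Q : Bool → Nm) : List Nm :=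
  z :: ((List.range (p.k + 1)).map t ++ (w false :: w true :: ((List.range p.L).map (P false) ++
    ((List.range p.L).map (P true) ++ [Q false, Q true]))))

/-- The base names. -/
def base : List Nm := p.tup .z .t .w .P .Q

/-- The new base contents. -/
def outN (d : Bool) : List Nm := p.tup (.oz d) (.ot d) (.ow d) (.oP d) (.oQ d)

/-- Pairs of registers which have to be equal: scalars. -/
def eqs1 : List (Nm × Nm) :=
  [(Nm.z, Nm.zc), (Nm.zz, Nm.zc)] ++ ((List.range (p.k + 1)).flatMap (fun j =>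
    [(Nm.t j, Nm.tc j), (Nm.tt j, Nm.tc j)]) ++ (List.range p.k).map (fun j => (Nm.tk j, Nm.zero)))

/-- Pairs of registers which have to be equal: membership. -/
def eqs2 (b : Bool) : List (Nm × Nm) :=
  (List.range p.L).flatMap (fun s => (List.range p.κ).map fun j =>
      (if p.k < j then Nm.nP b s j else Nm.zero, Nm.zero)) ++
    (List.range p.κ).map (fun j => (if p.k < j then Nm.nQ b j else Nm.zero, Nm.zero))

/-- Pairs of registers which have to be equal: rule. -/
def eqs3 (b : Bool) : List (Nm × Nm) := [(Nm.hw b, Nm.w b), (Nm.w b, Nm.pV b), (Nm.c4 b, Nm.zero)]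

/-- The pairs of registers which have to be equal. -/
def eqs : List (Nm × Nm) :=
  p.eqs1 ++ (p.eqs2 false ++ (p.eqs2 true ++ (eqs3 false ++ eqs3 true)))

/-- The triples `(a, b, c)` such that `a = b * c` has to hold at most points. -/
def prods : List (Nm × Nm × Nm) :=
  (List.range p.L).map (fun s => (Nm.P false s, Nm.sw s, Nm.LY false s)) ++
  ((List.range p.L).map (fun s => (Nm.P true s, Nm.sw s, Nm.LY true s)) ++
  [(Nm.Q false, Nm.LA false, Nm.LB false), (Nm.Q true, Nm.LA true, Nm.LB true)])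

end PP

end Vale.Agent.P330.H16
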