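import Vale.Agent.P330.H16.Asm

/-!
# Programs with named registers

A command `Cmd N K` computes the register with the name `out` from the registers with the names
`args`, by the macro of the kind `kd : K`.  `gen` gives the code of a kind.  `compile` translates a
list of commands; `compile_spec`: if every command is right for the contents `sem : N → Ct κ F` and
if the arguments are defined before they are used (`WF`), then in the end every name has its
content.
-/

namespace Vale.Agent.P330.H16

open Finset

variable {κ : ℕ} {F : Type} [Field F] {N K : Type}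

/-- A command. -/
structure Cmd (N K : Type) where
  out : N
  kd : K
  args : List N

/-- Code generators: kind, current length, argument registers. -/
abbrev Gen (K F : Type) := K → ℕ → List ℕ → List (Ins F) × ℕ

/-- The kind `k` computes `u` from `us`. -/
def KSem (pub : ℕ → Ct κ F) (gen : Gen K F) (k : K) (us : List (Ct κ F)) (u : Ct κ F) : Prop :=
  ∀ rs as, List.Forall₂ (Has rs) as us →
    ∃ ex, run pub (gen k rs.length as).1 rs = rs ++ ex ∧ runOK pub (gen k rs.length as).1 rs ∧
      Has (rs ++ ex) (gen k rs.length as).2 u

/-- Translation of a list of commands. -/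
def compile [DecidableEq N] (gen : Gen K F) : List (Cmd N K) → (N → ℕ) → ℕ →
    (N → ℕ) × List (Ins F)
  | [], env, _ => (env, [])
  | c :: l, env, n =>
    let g := gen c.kd n (c.args.map env)
    let r := compile gen l (Function.update env c.out g.2) (n + g.1.length)
    (r.1, g.1 ++ r.2)

/-- Arguments are defined before they are used. -/
def WF (D : N → Prop) : List (Cmd N K) → Prop
  | [] => True
  | c :: l => (∀ a ∈ c.args, D a) ∧ WF (fun x => D x ∨ x = c.out) l

/-- The names defined by a list of commands. -/
def outs (l : List (Cmd N K)) : List N := l.map Cmd.out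

theorem WF.mono {D D' : N → Prop} (h : ∀ x, D x → D' x) {l : List (Cmd N K)} (hl : WF D l) :
    WF D' l := by
  induction l generalizing D D' with
  | nil => trivial
  | cons c l ih =>
    exact ⟨fun a ha => h a (hl.1 a ha), ih (fun x hx => hx.imp (h x) id) hl.2⟩

theorem WF.append {D : N → Prop} {l l' : List (Cmd N K)} (h : WF D l)
    (h' : WF (fun x => D x ∨ x ∈ outs l) l') : WF D (l ++ l') := by
  induction l generalizing D with
  | nil => exact h'.mono fun x hx => hx.elim id fun h => by simp [outs] at h
  | cons c l ih =>
    refine ⟨h.1, ih h.2 (h'.mono fun x hx => ?_)⟩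
    rcases hx with hx | hx
    · exact Or.inl (Or.inl hx)
    · simp only [outs, List.map_cons, List.mem_cons] at hx
      rcases hx with hx | hx
      · exact Or.inl (Or.inr hx)
      · exact Or.inr hx

theorem mem_outs_append {l l' : List (Cmd N K)} {x : N} :
    x ∈ outs (l ++ l') ↔ x ∈ outs l ∨ x ∈ outs l' := by
  simp [outs]

theorem mem_outs_flatMap {A : Type} {l : List A} {f : A → List (Cmd N K)} {x : N} :
    x ∈ outs (l.flatMap f) ↔ ∃ a ∈ l, x ∈ outs (f a) := by
  simp only [outs, List.mem_map, List.mem_flatMap]
  constructor
  · rintro ⟨c, ⟨a, ha, hc⟩, rfl⟩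
    exact ⟨a, ha, c, hc, rfl⟩
  · rintro ⟨a, ha, c, hc, rfl⟩
    exact ⟨c, ⟨a, ha, hc⟩, rfl⟩

theorem WF.range {D : N → Prop} {f : ℕ → List (Cmd N K)} {n : ℕ}
    (h : ∀ i < n, WF (fun x => D x ∨ ∃ j < i, x ∈ outs (f j)) (f i)) :
    WF D ((List.range n).flatMap f) := by
  induction n with
  | zero => trivial
  | succ n ih =>
    rw [List.range_succ, List.flatMap_append]
    refine WF.append (ih fun i hi => h i (hi.trans (Nat.lt_succ_self _))) ?_
    simp only [List.flatMap_cons, List.flatMap_nil, List.append_nil]
    refine (h n (Nat.lt_succ_self _)).mono fun x hx => ?_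
    rcases hx with hx | ⟨j, hj, hx⟩
    · exact Or.inl hx
    · exact Or.inr (mem_outs_flatMap.2 ⟨j, List.mem_range.2 hj, hx⟩)

/-- **Correctness of the translation.** -/
theorem compile_spec [DecidableEq N] {pub : ℕ → Ct κ F} {gen : Gen K F} {sem : N → Ct κ F}
    {l : List (Cmd N K)} (hl : ∀ c ∈ l, KSem pub gen c.kd (c.args.map sem) (sem c.out))
    {D : N → Prop} (hD : WF D l) {rs : List (Ct κ F)} {env : N → ℕ}
    (hrs : ∀ x, D x → Has rs (env x) (sem x)) :
    ∃ ex, run pub (compile gen l env rs.length).2 rs = rs ++ ex ∧
      runOK pub (compile gen l env rs.length).2 rs ∧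
      ∀ x, (D x ∨ x ∈ outs l) → Has (rs ++ ex) ((compile gen l env rs.length).1 x) (sem x) := by
  induction l generalizing D rs env with
  | nil =>
    exact ⟨[], by simp [compile, run], trivial, fun x hx => by
      simpa [compile] using hrs x (hx.elim id fun h => by simp [outs] at h)⟩
  | cons c l ih =>
    obtain ⟨h1, h2⟩ := hD
    have hf : List.Forall₂ (Has rs) (c.args.map env) (c.args.map sem) := by
      rw [List.forall₂_map_left_iff, List.forall₂_map_right_iff]
      rw [List.forall₂_same]
      exact fun a ha => hrs a (h1 a ha)
    obtain ⟨ex, h3, h4, h5⟩ := hl c (List.mem_cons_self ..) rs _ hf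
    have hlen : (rs ++ ex).length = rs.length + (gen c.kd rs.length (c.args.map env)).1.length := by
      rw [← h3, run_length]
    have key : ∀ x, (D x ∨ x = c.out) → Has (rs ++ ex)
        (Function.update env c.out (gen c.kd rs.length (c.args.map env)).2 x) (sem x) := by
      intro x hx
      by_cases hxc : x = c.out
      · subst hxc
        rw [Function.update_self]
        exact h5
      · rw [Function.update_of_ne hxc]
        exact (hrs x (hx.resolve_right hxc)).append
    obtain ⟨ex', h6, h7, h8⟩ := ih (fun c' hc' => hl c' (List.mem_cons_of_mem _ hc')) h2 key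
    rw [hlen] at h6 h7 h8
    refine ⟨ex ++ ex', ?_, ?_, ?_⟩
    · simp only [compile, run_append, h3, h6, List.append_assoc]
    · exact runOK_append pub h4 (by rw [h3]; exact h7)
    · intro x hx
      simp only [compile, ← List.append_assoc]
      refine h8 x ?_
      rcases hx with hx | hx
      · exact Or.inl (Or.inl hx)
      · simp only [outs, List.map_cons, List.mem_cons] at hx
        rcases hx with hx | hx
        · exact Or.inl (Or.inr hx)
        · exact Or.inr hx

end Vale.Agent.P330.H16
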