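import Vale.Agent.P330.H16.Cmd

/-!
# The kinds of commands of the content program, and their operators
-/

namespace Vale.Agent.P330.H16

open Finset

variable {κ : ℕ} {F : Type}

/-- The unary macros. -/
inductive UM where
  | tr (j : ℕ)
  | mx (j : ℕ)
  | sum
  /-- restriction to the slots -/
  | hh
  /-- low degree extension of the restriction to the slots -/
  | lde
  /-- inverse transform -/
  | inv
  /-- restriction to the gate slots -/
  | nand
  /-- restriction to the points with number `≡ 0` mod 4 -/
  | k0
  /-- restriction to the points with number `≡ 1` mod 4 -/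
  | k1
  /-- restriction to the point `0` -/
  | rd0
  /-- restriction to the slots `< h`; constant registers: the bits `0, …, k` of `h` -/
  | pre
  /-- multiplication by the Lagrange polynomial of `p`; constant registers `s j (pt p)`, `j < k` -/
  | LL
  /-- restriction to the slot `a`; constant registers: the bits `0, …, k-1` of `a` -/
  | ch
  /-- translation by the offset of the outputs of the circuit `z` -/
  | off (z : Bool)
  deriving DecidableEq

/-- The kinds of commands. -/
inductive Kd (F : Type) where
  /-- linear combination of the arguments -/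
  | lin (l : List F)
  | pub (p : ℕ)
  /-- first argument (constant) times second argument -/
  | smul
  /-- a macro applied to the first argument; the other arguments are constant registers -/
  | un (m : UM)

/-- The code of the kinds, given the code of the unary macros. -/
def genK (mac : UM → List ℕ → Mac F) : Gen (Kd F) F
  | .lin l, n, as => ([.lin (l.zip as)], n)
  | .pub p, n, _ => ([.pub p], n)
  | .smul, n, as => ([.smul (as.getD 0 0) (as.getD 1 0)], n)
  | .un m, n, as => mac m as.tail n (as.headD 0)

variable [Field F]

/-- Auxiliary recursion of the restriction to a prefix. -/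
def preR (V : Ct κ F) (h : ℕ → F) : ℕ → Ct κ F
  | 0 => fun _ => 0
  | j + 1 => fun x => h j * ((1 + bx j x) * V x) + (1 + bx j x + h j) * preR V h j x

/-- The operator `pre`. -/
def preOp (k : ℕ) (h : ℕ → F) (u : Ct κ F) : Ct κ F := fun x =>
  preR (pre (2 ^ k) u) h k x + h k * pre (2 ^ k) u x

/-- The operator `LL`. -/
def LOp (R : RSys κ F) (k : ℕ) (S : ℕ → F) (u : Ct κ F) : Ct κ F := fun x =>
  (∏ j ∈ range k, (1 + R.s j x + S j)) * u x

/-- The operator `ch`. -/
def chOp (k : ℕ) (a : ℕ → F) (u : Ct κ F) : Ct κ F := fun x =>
  (∏ j ∈ range κ, (1 + bx j x + if j < k then a j else 0)) * u x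

/-- Restriction to the value `0` of the bit `j` (extended by a constant). -/
def at0 (j : ℕ) (u : Ct κ F) : Ct κ F := fun x => (1 + bx j x) * u x + bx j x * tr (e κ j) u x

/-- Restriction to the value `1` of the bit `j` (extended by a constant). -/
def at1 (j : ℕ) (u : Ct κ F) : Ct κ F := fun x => bx j x * u x + (1 + bx j x) * tr (e κ j) u x

/-- A stage of the inverse transform. -/
def iffOp (R : RSys κ F) (j : ℕ) (u : Ct κ F) : Ct κ F := fun x =>
  let C := u x + tr (e κ j) u x
  let A := u x + R.s j x * C
  A + bx j x * (A + C)

/-- A stage of the forward transform. -/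
def ffOp (R : RSys κ F) (j : ℕ) (u : Ct κ F) : Ct κ F := fun x => at0 j u x + R.s j x * at1 j u x

/-- The inverse transform (all stages). -/
def invOp (R : RSys κ F) : Ct κ F → Ct κ F := opIter (iffOp R) (List.range κ)

/-- The operator `lde`. -/
def ldeOp (R : RSys κ F) (k : ℕ) (u : Ct κ F) : Ct κ F :=
  opIter (ffOp R) (List.range κ).reverse (opIter (iffOp R) (List.range k) (pre (2 ^ k) u))

/-- The operators of the unary macros; `vs` are the values of the constant registers. -/
def opr (k : ℕ) (off : Bool → ℕ) (R : RSys κ F) : UM → List F → Ct κ F → Ct κ F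
  | .tr j, _, u => tr (e κ j) u
  | .mx j, _, u => fun x => bx j x * u x
  | .sum, _, u => fun _ => ∑ x, u x
  | .hh, _, u => pre (2 ^ k) u
  | .lde, _, u => ldeOp R k u
  | .inv, _, u => invOp R u
  | .nand, _, u => msk isNand u
  | .k0, _, u => msk (fun x => decide (x % 4 = 0)) u
  | .k1, _, u => msk (fun x => decide (x % 4 = 1)) u
  | .rd0, _, u => chOp 0 (fun _ => 0) u
  | .pre, vs, u => preOp k (fun j => vs.getD j 0) u
  | .LL, vs, u => LOp R k (fun j => vs.getD j 0) u
  | .ch, vs, u => chOp k (fun j => vs.getD j 0) u
  | .off z, _, u => tr (pt κ (off z)) u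

/-- The macros are right. -/
def MacOK (k : ℕ) (off : Bool → ℕ) (R : RSys κ F) (pub : ℕ → Ct κ F)
    (mac : UM → List ℕ → Mac F) : Prop :=
  ∀ (m : UM) (cs : List ℕ) (vs : List F), cs.length = vs.length →
    Is pub (cs.zip vs) (mac m cs) (opr k off R m vs)

section

variable {k : ℕ} {off : Bool → ℕ} {R : RSys κ F} {pub : ℕ → Ct κ F}
  {mac : UM → List ℕ → Mac F}

theorem KSem.pub' (p : ℕ) {us : List (Ct κ F)} {u : Ct κ F} (h : pub p = u) :
    KSem pub (genK mac) (.pub p) us u := fun rs _ _ =>
  ⟨[u], by simp [genK, run, Ins.ev, h], ⟨trivial, trivial⟩, Has.last _ _⟩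

theorem KSem.smul {c : Ct κ F} {a : F} {v u : Ct κ F} (hc : c = fun _ => a)
    (h : ∀ x, u x = a * v x) : KSem pub (genK mac) .smul [c, v] u := by
  intro rs as has
  subst hc
  cases has with
  | cons h1 h2 => cases h2 with
    | cons h2 h3 => cases h3 with
      | nil =>
        rename_i i₁ i₂
        have hu : u = fun x => a * v x := funext h
        refine ⟨[u], ?_, ⟨⟨h2.lt, a, h1⟩, trivial⟩, Has.last _ _⟩
        simp [genK, run, Ins.ev, h1.get, h2.get, hu]

/-- linear combination of contents -/
def lcV : List F → List (Ct κ F) → Ct κ F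
  | a :: l, u :: us => fun x => a * u x + lcV l us x
  | _, _ => fun _ => 0

theorem KSem.lin {l : List F} {us : List (Ct κ F)} {u : Ct κ F}
    (h : ∀ x, u x = lcV l us x) : KSem pub (genK mac) (.lin l) us u := by
  intro rs as has
  have key : ∀ (l : List F) (as : List ℕ) (us : List (Ct κ F)), List.Forall₂ (Has rs) as us →
      linV rs (l.zip as) = lcV l us ∧ ∀ q ∈ l.zip as, q.2 < rs.length := by
    intro l as us has
    induction has generalizing l with
    | nil => cases l <;> simp [linV, lcV]
    | @cons i v as us h1 _ ih =>
      cases l with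
      | nil => simp [linV, lcV]
      | cons a l =>
        obtain ⟨h2, h3⟩ := ih l
        refine ⟨?_, ?_⟩
        · simp only [List.zip_cons_cons, linV, lcV, h2, h1.getD]
        · intro q hq
          simp only [List.zip_cons_cons, List.mem_cons] at hq
          rcases hq with rfl | hq
          · exact h1.lt
          · exact h3 q hq
  obtain ⟨h1, h2⟩ := key l as us has
  refine ⟨[u], ?_, ⟨h2, trivial⟩, Has.last _ _⟩
  simp only [genK, run, Ins.ev, h1]
  rw [funext h]

theorem KSem.un (hm : MacOK k off R pub mac) {m : UM} {v : Ct κ F} {cs : List (Ct κ F)}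
    {vs : List F} {u : Ct κ F} (hc : cs = vs.map fun a _ => a)
    (h : u = opr k off R m vs v) : KSem pub (genK mac) (.un m) (v :: cs) u := by
  intro rs as has
  subst hc h
  cases has with
  | @cons i _ as _ h1 h2 =>
    have hl : as.length = vs.length := by
      have := h2.length_eq
      simpa using this
    have he : EnvOK (as.zip vs) rs := by
      intro q hq
      obtain ⟨n, hn, hq⟩ := List.mem_iff_getElem.1 hq
      simp only [List.getElem_zip] at hq
      subst hq
      simp only [List.length_zip, lt_min_iff] at hn
      have := h2.get hn.1 (by simpa using hn.2)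
      simpa using this
    obtain ⟨ex, h3, h4, h5⟩ := hm m as vs hl rs he i v h1
    exact ⟨ex, by simpa [genK] using h3, by simpa [genK] using h4, by simpa [genK] using h5⟩

end

end Vale.Agent.P330.H16
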