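import Vale.Agent.P330.H16.Kinds

/-!
# Names of the registers of the content program
-/

namespace Vale.Agent.P330.H16

open Finset

/-- Base contents (arbitrary). -/
structure BC (κ : ℕ) (F : Type) where
  z : Ct κ F
  t : ℕ → Ct κ F
  w : Bool → Ct κ F
  P : Bool → ℕ → Ct κ F
  Q : Bool → Ct κ F

/-- Names of registers. -/
inductive Nm where
  /- base -/
  | z | t (j : ℕ) | w (b : Bool) | P (b : Bool) (s : ℕ) | Q (b : Bool)
  /- scalars -/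
  | one | zero
  | zd | zc | td (j : ℕ) | tc (j : ℕ)
  | zb (b : Bool) | tn (j : ℕ) | car (j : ℕ) | tp (j : ℕ) | bor (j : ℕ) | tm (j : ℕ) | t0n
  | hx (b : Bool) (j : ℕ) | hb (b : Bool) (j : ℕ) | pb (j : ℕ)
  | zz | tt (j : ℕ) | tk (j : ℕ)
  /- hard-wired words -/
  | sw (s : ℕ)
  /- routing -/
  | f (b : Bool) (s : ℕ) | T (b : Bool) (s : ℕ) | Y (b : Bool) (s : ℕ) | LY (b : Bool) (s : ℕ)
  | hP (b : Bool) (s : ℕ) | mP (b : Bool) (s : ℕ) | nP (b : Bool) (s j : ℕ)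
  /- gates -/
  | A1 (b : Bool) | A2 (b : Bool) | LA (b : Bool) | B1 (b : Bool) | B2 (b : Bool) | LB (b : Bool)
  | hQ (b : Bool) | mQ (b : Bool) | nQ (b : Bool) (j : ℕ)
  /- rule -/
  | xo (b : Bool) | i1 (b : Bool) | i2 (b : Bool) | v1 (b : Bool) | v2 (b : Bool) | v3 (b : Bool)
  | v4 (b : Bool) | v5 (b : Bool) | v6 (b : Bool) | v7 (b : Bool) | V (b : Bool) | pV (b : Bool)
  | hw (b : Bool) | c1 (b : Bool) | c2 (b : Bool) | c3 (b : Bool) | c4 (b : Bool)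
  /- packets; `m = false`: slot `t`, `m = true`: slot `t - 1` -/
  | g (m : Bool) (s : ℕ) | px (m : Bool) (s i : ℕ) | pi (m : Bool) (s i : ℕ)
  | S (m : Bool) (s j : ℕ) | S' (m : Bool) (s j : ℕ)
  | u1 (m : Bool) (s : ℕ) | u2 (m : Bool) (s : ℕ) | U (m : Bool) (s : ℕ) | hU (m : Bool) (s : ℕ)
  | SA (m : Bool) (j : ℕ) | SB (m : Bool) (j : ℕ) | an (m : Bool) (j : ℕ)
  | e0 (m : Bool) | e1 (m : Bool)
  /- updates -/
  | rv (m b : Bool) | v (m b : Bool) | wd (m b : Bool) | wn (m b : Bool)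
  | Pd (m b : Bool) (s : ℕ) | Pn (m b : Bool) (s : ℕ)
  | q1 (m b : Bool) | q2 (m b : Bool) | q3 (m b : Bool) | q4 (m b : Bool) | q5 (m b : Bool)
  | q6 (m b : Bool) | Qn (m b : Bool)
  /- outputs for the direction `d` -/
  | cf (d : Bool) | cg (d : Bool) | ce (d : Bool) | cs (d : Bool) | cm (d b : Bool)
  | cc (d b : Bool) | cgs (d : Bool)
  | oz (d : Bool) | x1 (d : Bool) (j : ℕ) | x2 (d : Bool) (j : ℕ) | x3 (d : Bool) (j : ℕ)
  | ot (d : Bool) (j : ℕ)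
  | w1 (d b : Bool) | w2 (d b : Bool) | w3 (d b : Bool) | ow (d b : Bool)
  | P1 (d b : Bool) (s : ℕ) | P2 (d b : Bool) (s : ℕ) | P3 (d b : Bool) (s : ℕ)
  | oP (d b : Bool) (s : ℕ)
  | Q1 (d b : Bool) | Q2 (d b : Bool) | Q3 (d b : Bool) | oQ (d b : Bool)
  deriving DecidableEq

end Vale.Agent.P330.H16
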