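import Vale.Agent.P330.H16.TopNd

/-!
# The names which are compared and the output names are defined
-/

set_option linter.unusedSectionVars false
set_option linter.unusedSimpArgs false
set_option linter.constructorNameAsVariable false

namespace Vale.Agent.P330.H16

open Finset

namespace PP

variable {F : Type} [Field F] {p : PP F}

theorem eqs1_dom {q : Nm × Nm} (hq : q ∈ p.eqs1) : p.bd q.1 ∧ p.bd q.2 := by
  simp only [eqs1, List.mem_append, List.mem_cons, List.not_mem_nil, or_false, List.mem_flatMap,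
    List.mem_map, List.mem_range] at hq
  rcases hq with (rfl | rfl) | ⟨j, hj, rfl | rfl⟩ | ⟨j, hj, rfl⟩ <;> simp [bd] <;> omega

theorem eqs2_dom {b : Bool} {q : Nm × Nm} (hq : q ∈ p.eqs2 b) : p.bd q.1 ∧ p.bd q.2 := by
  simp only [eqs2, List.mem_append, List.mem_flatMap,
    List.mem_map, List.mem_range] at hq
  rcases hq with ⟨s, hs, j, hj, rfl⟩ | ⟨j, hj, rfl⟩
  · by_cases h : p.k < j <;> simp [bd, h, hs, hj]
  · by_cases h : p.k < j <;> simp [bd, h, hj]

theorem eqs3_dom {b : Bool} {q : Nm × Nm} (hq : q ∈ eqs3 b) : p.bd q.1 ∧ p.bd q.2 := by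
  simp only [eqs3, List.mem_cons, List.not_mem_nil, or_false] at hq
  rcases hq with rfl | rfl | rfl <;> simp [bd]

/-- **The names of the equations are defined.** -/
theorem eqs_dom {q : Nm × Nm} (hq : q ∈ p.eqs) :
    (q.1 ∈ p.base ∨ q.1 ∈ outs p.prog) ∧ (q.2 ∈ p.base ∨ q.2 ∈ outs p.prog) := by
  have h : p.bd q.1 ∧ p.bd q.2 := by
    simp only [eqs, List.mem_append] at hq
    rcases hq with hq | hq | hq | hq | hq
    · exact eqs1_dom hq
    · exact eqs2_dom hq
    · exact eqs2_dom hq
    · exact eqs3_dom hq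
    · exact eqs3_dom hq
  exact ⟨dom _ h.1, dom _ h.2⟩

/-- **The names of the products are defined.** -/
theorem prods_dom {q : Nm × Nm × Nm} (hq : q ∈ p.prods) :
    (q.1 ∈ p.base ∨ q.1 ∈ outs p.prog) ∧ (q.2.1 ∈ p.base ∨ q.2.1 ∈ outs p.prog) ∧
      (q.2.2 ∈ p.base ∨ q.2.2 ∈ outs p.prog) := by
  have h : p.bd q.1 ∧ p.bd q.2.1 ∧ p.bd q.2.2 := by
    simp only [prods, List.mem_append, List.mem_map, List.mem_range, List.mem_cons,
      List.not_mem_nil, or_false] at hq
    rcases hq with ⟨s, hs, rfl⟩ | ⟨s, hs, rfl⟩ | rfl | rfl <;> simp [bd] <;> omega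
  exact ⟨dom _ h.1, dom _ h.2.1, dom _ h.2.2⟩

/-- **The output names are defined.** -/
theorem outN_dom {d : Bool} {x : Nm} (hx : x ∈ p.outN d) : x ∈ p.base ∨ x ∈ outs p.prog := by
  refine dom _ ?_
  simp only [outN, tup, List.mem_cons, List.mem_append, List.mem_map, List.not_mem_nil,
    List.mem_range, or_false] at hx
  rcases hx with rfl | ⟨a, ha, rfl⟩ | rfl | rfl | ⟨a, ha, rfl⟩ | ⟨a, ha, rfl⟩ | rfl | rfl <;>
    simp [bd] <;> omega

/-- The output names are defined by the program. -/
theorem outN_outs {d : Bool} {x : Nm} (hx : x ∈ p.outN d) : x ∈ outs p.prog := by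
  refine (outN_dom hx).resolve_left fun h => ?_
  have h0 := lvl_tup_base h
  simp only [outN, tup, List.mem_cons, List.mem_append, List.mem_map, List.not_mem_nil,
    List.mem_range, or_false] at hx
  rcases hx with rfl | ⟨a, ha, rfl⟩ | rfl | rfl | ⟨a, ha, rfl⟩ | ⟨a, ha, rfl⟩ | rfl | rfl <;>
    simp [lvl] at h0

theorem length_tup (p : PP F) (z : Nm) (t : ℕ → Nm) (w : Bool → Nm) (P : Bool → ℕ → Nm)
    (Q : Bool → Nm) : (p.tup z t w P Q).length = p.k + 2 * p.L + 6 := by
  simp [tup]; omega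

theorem length_base : p.base.length = p.k + 2 * p.L + 6 := length_tup p ..

theorem length_outN (d : Bool) : (p.outN d).length = p.k + 2 * p.L + 6 := length_tup p ..

/-- Different positions of the base have different names. -/
theorem nodup_base : p.base.Nodup := by
  simp only [base, tup, List.nodup_cons, List.nodup_append, List.mem_append, List.mem_cons,
    List.mem_map, List.not_mem_nil, List.mem_range, or_false]
  refine ⟨by simp, (List.nodup_range).map fun a b h => by simpa using h, ?_, ?_⟩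
  · refine ⟨by simp, by simp, (List.nodup_range).map fun a b h => by simpa using h,
      ⟨(List.nodup_range).map fun a b h => by simpa using h, by simp, ?_⟩, ?_⟩
    · rintro a ⟨j, _, rfl⟩ b (rfl | rfl) <;> simp
    · rintro a ⟨j, _, rfl⟩ b (⟨j', _, rfl⟩ | rfl | rfl) <;> simp
  · rintro a ⟨j, _, rfl⟩ b (rfl | rfl | ⟨j', _, rfl⟩ | ⟨j', _, rfl⟩ | rfl | rfl) <;> simp

end PP

end Vale.Agent.P330.H16
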