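import Vale.Agent.P330.H16.TopWF2

/-!
# Every name is defined once in the content program
-/

set_option linter.unusedSectionVars false
set_option linter.unusedSimpArgs false

namespace Vale.Agent.P330.H16

open Finset

/-- The index of the outer loop in which a name is defined. -/
def ix : Nm → ℕ
  | .car j | .bor j | .f _ j | .g _ j => j - 1
  | .td j | .tc j | .tn j | .tp j | .tm j | .hx _ j | .hb _ j | .pb j | .tt j | .tk j | .sw j
  | .T _ j | .Y _ j | .LY _ j | .hP _ j | .mP _ j | .nP _ j _ | .nQ _ j | .px _ j _ | .pi _ j _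
  | .S _ j _ | .S' _ j _ | .u1 _ j | .u2 _ j | .U _ j | .hU _ j | .SA _ j | .SB _ j
  | .Pd _ _ j | .Pn _ _ j | .x1 _ j | .x2 _ j | .x3 _ j | .ot _ j | .P1 _ _ j | .P2 _ _ j
  | .P3 _ _ j | .oP _ _ j => j
  | _ => 0

/-- The index of the inner loop in which a name is defined. -/
def iy : Nm → ℕ
  | .nP _ _ i | .px _ _ i | .pi _ _ i | .S _ _ i | .S' _ _ i => i
  | _ => 0

namespace PP

variable {F : Type} [Field F] {p : PP F}

theorem nd_append {l l' : List (C F)} (h : (outs l).Nodup) (h' : (outs l').Nodup)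
    (hd : ∀ x ∈ outs l, x ∉ outs l') : (outs (l ++ l')).Nodup := by
  simp only [outs, List.map_append]
  exact List.Nodup.append h h' fun x hx hx' => hd x hx hx'

theorem nd_range {f : ℕ → List (C F)} {n : ℕ} (g : Nm → ℕ)
    (h : ∀ i < n, (outs (f i)).Nodup) (hg : ∀ i < n, ∀ x ∈ outs (f i), g x = i) :
    (outs ((List.range n).flatMap f)).Nodup := by
  induction n with
  | zero => simp [outs]
  | succ n ih =>
    rw [List.range_succ, List.flatMap_append]
    refine nd_append (ih (fun i hi => h i (by omega)) fun i hi => hg i (by omega)) ?_ ?_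
    · simpa using h n (by omega)
    · intro x hx hx'
      obtain ⟨i, hi, hx⟩ := mem_outs_range.1 hx
      have h1 := hg i (by omega) x hx
      have h2 := hg n (by omega) x (by simpa using hx')
      omega

theorem nd1 : (outs (prS1 : List (C F))).Nodup := by
  simp [outs, prS1, add]

theorem nd2 : (outs p.prS2).Nodup := by
  refine nd_range ix (fun i _ => ?_) fun i _ x hx => ?_
  · simp [outs, add]
  · simp only [outs, add, List.map_cons, List.map_nil, List.mem_cons, List.not_mem_nil,
      or_false] at hx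
    rcases hx with rfl | rfl | rfl <;> rfl

theorem nd3 : (outs p.prS3).Nodup := by
  refine nd_range ix (fun i _ => ?_) fun i _ x hx => ?_
  · simp [outs, add]
  · simp only [outs, add, List.map_cons, List.map_nil, List.mem_cons, List.not_mem_nil,
      or_false] at hx
    rcases hx with rfl | rfl | rfl | rfl | rfl | rfl | rfl | rfl | rfl | rfl | rfl <;> rfl

theorem nd4 : (outs p.prS4).Nodup := by
  refine nd_append (l := [_]) (by simp [outs]) (nd_range ix (fun i _ => ?_) fun i _ x hx => ?_) ?_
  · simp [outs]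
  · simp only [outs, List.map_cons, List.map_nil, List.mem_cons, List.not_mem_nil,
      or_false] at hx
    subst hx; rfl
  · intro x hx hx'
    obtain ⟨i, hi, hx'⟩ := mem_outs_range.1 hx'
    simp only [outs, add, List.map_cons, List.map_nil, List.mem_cons, List.not_mem_nil,
      or_false] at hx hx'
    subst hx
    exact absurd hx' (by simp)

theorem ndR (b : Bool) : (outs (p.prR b)).Nodup := by
  refine nd_append (l := [_]) (by simp [outs]) (nd_range ix (fun i _ => ?_) fun i _ x hx => ?_) ?_
  · refine nd_append ?_ (nd_range iy (fun j _ => ?_) fun j _ x hx => ?_) ?_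
    · simp [outs, prR1, add]
    · simp [outs]
    · simp only [outs, List.map_cons, List.map_nil, List.mem_cons, List.not_mem_nil,
        or_false] at hx
      subst hx; rfl
    · intro x hx hx'
      obtain ⟨j, hj, hx'⟩ := mem_outs_range.1 hx'
      simp only [outs, prR1, add, List.map_cons, List.map_nil, List.mem_cons, List.not_mem_nil,
        or_false] at hx hx'
      subst hx'
      simp at hx
  · rw [mem_outs_append, prR2, mem_outs_range] at hx
    simp only [outs, prR1, add, List.map_cons, List.map_nil, List.mem_cons, List.not_mem_nil,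
      or_false] at hx
    rcases hx with (rfl | rfl | rfl | rfl | rfl | rfl) | ⟨j, hj, rfl⟩ <;> rfl
  · intro x hx hx'
    obtain ⟨i, hi, hx'⟩ := mem_outs_range.1 hx'
    rw [mem_outs_append, prR2, mem_outs_range] at hx'
    simp only [outs, prR1, add, List.map_cons, List.map_nil, List.mem_cons, List.not_mem_nil,
      or_false] at hx hx'
    subst hx
    simp at hx'

theorem ndG1 (b : Bool) : (outs (prG1 b : List (C F))).Nodup := by
  simp [outs, prG1, add]

theorem ndG2 (b : Bool) : (outs (p.prG2 b)).Nodup := by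
  refine nd_range ix (fun i _ => ?_) fun i _ x hx => ?_
  · simp [outs, add]
  · simp only [outs, add, List.map_cons, List.map_nil, List.mem_cons, List.not_mem_nil,
      or_false] at hx
    subst hx; rfl

theorem ndV (b : Bool) : (outs (p.prV b)).Nodup := by
  simp [outs, prV, add]

theorem ndUs (m : Bool) : (outs ((List.range p.L).flatMap (p.prUs m))).Nodup := by
  have h1 : ∀ i, ∀ x ∈ outs (p.prU1 m i), ∃ j < p.k, x = .px m i j ∨ x = .pi m i j := by
    intro i x hx
    obtain ⟨j, hj, hx⟩ := mem_outs_range.1 hx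
    exact ⟨j, hj, by simpa [outs] using hx⟩
  have h2 : ∀ i, ∀ x ∈ outs (p.prU2 m i), ∃ j < p.k, x = .S m i j ∨ x = .S' m i j := by
    intro i x hx
    obtain ⟨j, hj, hx⟩ := mem_outs_range.1 hx
    exact ⟨j, hj, by simpa [outs] using hx⟩
  have h3 : ∀ i, ∀ x ∈ outs (p.prU3 m i), x = .u1 m i ∨ x = .u2 m i ∨ x = .U m i ∨ x = .hU m i ∨
      x = .g m (i + 1) := by
    intro i x hx
    simpa [outs, prU3, add] using hx
  refine nd_range ix (fun i _ => nd_append ?_ (nd_append ?_ ?_ ?_) ?_) fun i _ x hx => ?_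
  · refine nd_range iy (fun j _ => by simp [outs]) fun j _ x hx => ?_
    simp only [outs, List.map_cons, List.map_nil, List.mem_cons, List.not_mem_nil,
      or_false] at hx
    rcases hx with rfl | rfl <;> rfl
  · refine nd_range iy (fun j _ => by simp [outs]) fun j _ x hx => ?_
    simp only [outs, List.map_cons, List.map_nil, List.mem_cons, List.not_mem_nil,
      or_false] at hx
    rcases hx with rfl | rfl <;> rfl
  · simp [outs, prU3, add]
  · intro x hx hx'
    obtain ⟨j, _, hx⟩ := h2 i x hx
    have hx' := h3 i x hx'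
    rcases hx with rfl | rfl <;> simp at hx'
  · intro x hx hx'
    obtain ⟨j, _, hx⟩ := h1 i x hx
    rw [mem_outs_append] at hx'
    rcases hx' with hx' | hx'
    · obtain ⟨j', _, hx'⟩ := h2 i x hx'
      rcases hx with rfl | rfl <;> simp at hx'
    · have hx' := h3 i x hx'
      rcases hx with rfl | rfl <;> simp at hx'
  · rw [prUs, mem_outs_append, mem_outs_append] at hx
    rcases hx with hx | hx | hx
    · obtain ⟨j, _, rfl | rfl⟩ := h1 i x hx <;> rfl
    · obtain ⟨j, _, rfl | rfl⟩ := h2 i x hx <;> rfl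
    · rcases h3 i x hx with rfl | rfl | rfl | rfl | rfl <;> rfl

theorem out_Us (m : Bool) {x : Nm} (hx : x ∈ outs ((List.range p.L).flatMap (p.prUs m))) :
    ∃ i, (∃ j, x = .px m i j ∨ x = .pi m i j ∨ x = .S m i j ∨ x = .S' m i j) ∨
      x = .u1 m i ∨ x = .u2 m i ∨ x = .U m i ∨ x = .hU m i ∨ x = .g m (i + 1) := by
  obtain ⟨i, _, hx⟩ := mem_outs_range.1 hx
  refine ⟨i, ?_⟩
  rw [prUs, mem_outs_append, mem_outs_append] at hx
  rcases hx with hx | hx | hx
  · obtain ⟨j, _, hx⟩ := mem_outs_range.1 hx
    have hx : x = .px m i j ∨ x = .pi m i j := by simpa [outs] using hx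
    exact Or.inl ⟨j, by rcases hx with h | h <;> simp [h]⟩
  · obtain ⟨j, _, hx⟩ := mem_outs_range.1 hx
    have hx : x = .S m i j ∨ x = .S' m i j := by simpa [outs] using hx
    exact Or.inl ⟨j, by rcases hx with h | h <;> simp [h]⟩
  · exact Or.inr (by simpa [outs, prU3, add] using hx)

theorem out_A (m : Bool) {x : Nm} (hx : x ∈ outs (p.prA m)) :
    ∃ j, x = .SA m j ∨ x = .SB m j := by
  obtain ⟨i, _, hx⟩ := mem_outs_range.1 hx
  exact ⟨i, by simpa [outs] using hx⟩

theorem out_E (m : Bool) {x : Nm} (hx : x ∈ outs (prE m : List (C F))) :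
    x = .an m 0 ∨ x = .an m 1 ∨ x = .e0 m ∨ x = .e1 m := by
  simpa [outs, prE, add] using hx

theorem ndU (m : Bool) : (outs (p.prU m)).Nodup := by
  refine nd_append (by simp [prD, outs]) (nd_append (ndUs m) (nd_append ?_ ?_ ?_) ?_) ?_
  · refine nd_range ix (fun i _ => by simp [outs]) fun i _ x hx => ?_
    have hx : x = .SA m i ∨ x = .SB m i := by simpa [outs] using hx
    rcases hx with rfl | rfl <;> rfl
  · simp [outs, prE, add]
  · intro x hx hx'
    obtain ⟨j, hx⟩ := out_A m hx
    have hx' := out_E m hx'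
    rcases hx with rfl | rfl <;> simp at hx'
  · intro x hx hx'
    obtain ⟨i, hx⟩ := out_Us m hx
    rw [mem_outs_append] at hx'
    rcases hx' with hx' | hx'
    · obtain ⟨j, hx'⟩ := out_A m hx'
      rcases hx with ⟨j, rfl | rfl | rfl | rfl⟩ | rfl | rfl | rfl | rfl | rfl <;> simp at hx'
    · have hx' := out_E m hx'
      rcases hx with ⟨j, rfl | rfl | rfl | rfl⟩ | rfl | rfl | rfl | rfl | rfl <;> simp at hx'
  · intro x hx hx'
    have hx : x = .g m 0 := by simpa [prD, outs] using hx
    subst hx
    rw [mem_outs_append, mem_outs_append] at hx'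
    rcases hx' with hx' | hx' | hx'
    · obtain ⟨i, hx'⟩ := out_Us m hx'
      simp at hx'
    · obtain ⟨i, hx'⟩ := out_A m hx'
      simp at hx'
    · have hx' := out_E m hx'
      simp at hx'

theorem out_N1 (m b : Bool) {x : Nm} (hx : x ∈ outs (p.prN1 m b)) :
    x = .rv m b ∨ x = .v m b ∨ x = .wd m b ∨ x = .wn m b := by
  simpa [outs, prN1, add] using hx

theorem out_N2 (m b : Bool) {x : Nm} (hx : x ∈ outs (p.prN2 m b)) :
    ∃ s, x = .Pd m b s ∨ x = .Pn m b s := by
  obtain ⟨i, _, hx⟩ := mem_outs_range.1 hx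
  exact ⟨i, by simpa [outs, add] using hx⟩

theorem out_N3 (m b : Bool) {x : Nm} (hx : x ∈ outs (p.prN3 m b)) :
    x = .q1 m b ∨ x = .q2 m b ∨ x = .q3 m b ∨ x = .q4 m b ∨ x = .q5 m b ∨ x = .q6 m b ∨
      x = .Qn m b := by
  simpa [outs, prN3, add] using hx

theorem ndN (m b : Bool) : (outs (p.prN m b)).Nodup := by
  refine nd_append (by simp [outs, prN1, add]) (nd_append ?_ (by simp [outs, prN3, add]) ?_) ?_
  · refine nd_range ix (fun i _ => by simp [outs, add]) fun i _ x hx => ?_
    have hx : x = .Pd m b i ∨ x = .Pn m b i := by simpa [outs, add] using hx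
    rcases hx with rfl | rfl <;> rfl
  · intro x hx hx'
    obtain ⟨j, hx⟩ := out_N2 m b hx
    have hx' := out_N3 m b hx'
    rcases hx with rfl | rfl <;> simp at hx'
  · intro x hx hx'
    have hx := out_N1 m b hx
    rw [mem_outs_append] at hx'
    rcases hx' with hx' | hx'
    · obtain ⟨j, hx'⟩ := out_N2 m b hx'
      rcases hx with rfl | rfl | rfl | rfl <;> simp at hx'
    · have hx' := out_N3 m b hx'
      rcases hx with rfl | rfl | rfl | rfl <;> simp at hx'

theorem ndF (d : Bool) : (outs (p.prF d)).Nodup := by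
  cases d <;> simp [outs, prF, add]

theorem ndT (d : Bool) : (outs (p.prT d)).Nodup := by
  refine nd_range ix (fun i _ => by simp [outs, add]) fun i _ x hx => ?_
  have hx : x = .x1 d i ∨ x = .x2 d i ∨ x = .x3 d i ∨ x = .ot d i := by simpa [outs, add] using hx
  rcases hx with rfl | rfl | rfl | rfl <;> rfl

theorem ndB1 (d b : Bool) : (outs (prB1 d b : List (C F))).Nodup := by
  simp [outs, prB1, add]

theorem ndB2 (d b : Bool) : (outs (p.prB2 d b)).Nodup := by
  refine nd_range ix (fun i _ => by simp [outs, add]) fun i _ x hx => ?_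
  have hx : x = .P1 d b i ∨ x = .P2 d b i ∨ x = .P3 d b i ∨ x = .oP d b i := by
    simpa [outs, add] using hx
  rcases hx with rfl | rfl | rfl | rfl <;> rfl

theorem nd_seg (i : ℕ) : (outs (p.seg i)).Nodup := by
  match i with
  | 0 => exact nd1
  | 1 => exact nd2
  | 2 => exact nd3
  | 3 => exact nd4
  | 4 => exact ndR false
  | 5 => exact ndR true
  | 6 => exact ndG1 false
  | 7 => exact ndG1 true
  | 8 => exact ndG2 false
  | 9 => exact ndG2 true
  | 10 => exact ndV false
  | 11 => exact ndV true
  | 12 => exact ndU false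
  | 13 => exact ndU true
  | 14 => exact ndN false false
  | 15 => exact ndN false true
  | 16 => exact ndN true false
  | 17 => exact ndN true true
  | 18 => exact ndF false
  | 19 => exact ndF true
  | 20 => exact ndT false
  | 21 => exact ndT true
  | 22 => exact ndB1 false false
  | 23 => exact ndB1 false true
  | 24 => exact ndB1 true false
  | 25 => exact ndB1 true true
  | 26 => exact ndB2 false false
  | 27 => exact ndB2 false true
  | 28 => exact ndB2 true false
  | 29 => exact ndB2 true true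
  | n + 30 => exact List.nodup_nil

theorem lvl1 {x : Nm} (hx : x ∈ outs (prS1 : List (C F))) : lvl x = 1 := by
  simp only [outs, prS1, add, List.map_cons, List.map_nil, List.mem_cons, List.not_mem_nil,
    or_false] at hx
  rcases hx with rfl | rfl | rfl | rfl | rfl | rfl | rfl | rfl | rfl <;> rfl

theorem lvl2 {x : Nm} (hx : x ∈ outs p.prS2) : lvl x = 2 := by
  obtain ⟨i, _, hx⟩ := mem_outs_range.1 hx
  simp only [outs, add, List.map_cons, List.map_nil, List.mem_cons, List.not_mem_nil,
    or_false] at hx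
  rcases hx with rfl | rfl | rfl <;> rfl

theorem lvl3 {x : Nm} (hx : x ∈ outs p.prS3) : lvl x = 3 := by
  obtain ⟨i, _, hx⟩ := mem_outs_range.1 hx
  simp only [outs, add, List.map_cons, List.map_nil, List.mem_cons, List.not_mem_nil,
    or_false] at hx
  rcases hx with rfl | rfl | rfl | rfl | rfl | rfl | rfl | rfl | rfl | rfl | rfl <;> rfl

theorem lvl4 {x : Nm} (hx : x ∈ outs p.prS4) : lvl x = 4 := by
  rw [prS4, mem_outs_cons, mem_outs_range] at hx
  simp only [outs, add, List.map_cons, List.map_nil, List.mem_cons, List.not_mem_nil,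
    or_false] at hx
  rcases hx with rfl | ⟨i, _, rfl⟩ <;> rfl

theorem lvlR {b : Bool} {x : Nm} (hx : x ∈ outs (p.prR b)) : lvl x = 5 + b.toNat := by
  rw [prR, mem_outs_cons, mem_outs_range] at hx
  rcases hx with rfl | ⟨i, _, hx⟩
  · rfl
  · rw [mem_outs_append, prR2, mem_outs_range] at hx
    simp only [outs, prR1, add, List.map_cons, List.map_nil, List.mem_cons, List.not_mem_nil,
      or_false] at hx
    rcases hx with (rfl | rfl | rfl | rfl | rfl | rfl) | ⟨j, hj, rfl⟩ <;> rfl

theorem lvlG1 {b : Bool} {x : Nm} (hx : x ∈ outs (prG1 b : List (C F))) :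
    lvl x = 7 + b.toNat := by
  simp only [outs, prG1, add, List.map_cons, List.map_nil, List.mem_cons, List.not_mem_nil,
    or_false] at hx
  rcases hx with rfl | rfl | rfl | rfl | rfl | rfl | rfl | rfl <;> rfl

theorem lvlG2 {b : Bool} {x : Nm} (hx : x ∈ outs (p.prG2 b)) : lvl x = 9 + b.toNat := by
  obtain ⟨i, _, hx⟩ := mem_outs_range.1 hx
  simp only [outs, add, List.map_cons, List.map_nil, List.mem_cons, List.not_mem_nil,
    or_false] at hx
  subst hx; rfl

theorem lvlV {b : Bool} {x : Nm} (hx : x ∈ outs (p.prV b)) : lvl x = 11 + b.toNat := by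
  simp only [outs, prV, add, List.map_cons, List.map_nil, List.mem_cons, List.not_mem_nil,
    or_false] at hx
  rcases hx with rfl | rfl | rfl | rfl | rfl | rfl | rfl | rfl | rfl | rfl | rfl | rfl | rfl |
    rfl | rfl | rfl | rfl <;> rfl

theorem lvlU {m : Bool} {x : Nm} (hx : x ∈ outs (p.prU m)) : lvl x = 13 + m.toNat := by
  rw [prU, mem_outs_append, mem_outs_append, mem_outs_append] at hx
  rcases hx with hx | hx | hx | hx
  · have hx : x = .g m 0 := by simpa [prD, outs] using hx
    subst hx; rfl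
  · obtain ⟨i, hx⟩ := out_Us m hx
    rcases hx with ⟨j, rfl | rfl | rfl | rfl⟩ | rfl | rfl | rfl | rfl | rfl <;> rfl
  · obtain ⟨j, rfl | rfl⟩ := out_A m hx <;> rfl
  · rcases out_E m hx with rfl | rfl | rfl | rfl <;> rfl

theorem lvlN {m b : Bool} {x : Nm} (hx : x ∈ outs (p.prN m b)) :
    lvl x = 15 + 2 * m.toNat + b.toNat := by
  rw [prN, mem_outs_append, mem_outs_append] at hx
  rcases hx with hx | hx | hx
  · rcases out_N1 m b hx with rfl | rfl | rfl | rfl <;> rfl
  · obtain ⟨j, rfl | rfl⟩ := out_N2 m b hx <;> rfl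
  · rcases out_N3 m b hx with rfl | rfl | rfl | rfl | rfl | rfl | rfl <;> rfl

theorem lvlF {d : Bool} {x : Nm} (hx : x ∈ outs (p.prF d)) : lvl x = 19 + d.toNat := by
  simp only [outs, prF, add, List.map_cons, List.map_nil, List.mem_cons, List.not_mem_nil,
    or_false] at hx
  rcases hx with rfl | rfl | rfl | rfl | rfl | rfl | rfl | rfl | rfl | rfl <;> rfl

theorem lvlT {d : Bool} {x : Nm} (hx : x ∈ outs (p.prT d)) : lvl x = 21 + d.toNat := by
  obtain ⟨i, _, hx⟩ := mem_outs_range.1 hx
  have hx : x = .x1 d i ∨ x = .x2 d i ∨ x = .x3 d i ∨ x = .ot d i := by simpa [outs, add] using hx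
  rcases hx with rfl | rfl | rfl | rfl <;> rfl

theorem lvlB1 {d b : Bool} {x : Nm} (hx : x ∈ outs (prB1 d b : List (C F))) :
    lvl x = 23 + 2 * d.toNat + b.toNat := by
  simp only [outs, prB1, add, List.map_cons, List.map_nil, List.mem_cons, List.not_mem_nil,
    or_false] at hx
  rcases hx with rfl | rfl | rfl | rfl | rfl | rfl | rfl | rfl <;> rfl

theorem lvlB2 {d b : Bool} {x : Nm} (hx : x ∈ outs (p.prB2 d b)) :
    lvl x = 27 + 2 * d.toNat + b.toNat := by
  obtain ⟨i, _, hx⟩ := mem_outs_range.1 hx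
  have hx : x = .P1 d b i ∨ x = .P2 d b i ∨ x = .P3 d b i ∨ x = .oP d b i := by
    simpa [outs, add] using hx
  rcases hx with rfl | rfl | rfl | rfl <;> rfl

/-- The level of a name is the number of its segment. -/
theorem lvl_seg (i : ℕ) {x : Nm} (hx : x ∈ outs (p.seg i)) : lvl x = i + 1 := by
  match i with
  | 0 => exact lvl1 hx
  | 1 => exact lvl2 hx
  | 2 => exact lvl3 hx
  | 3 => exact lvl4 hx
  | 4 => exact lvlR hx
  | 5 => exact lvlR hx
  | 6 => exact lvlG1 hx
  | 7 => exact lvlG1 hx
  | 8 => exact lvlG2 hx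
  | 9 => exact lvlG2 hx
  | 10 => exact lvlV hx
  | 11 => exact lvlV hx
  | 12 => exact lvlU hx
  | 13 => exact lvlU hx
  | 14 => exact lvlN hx
  | 15 => exact lvlN hx
  | 16 => exact lvlN hx
  | 17 => exact lvlN hx
  | 18 => exact lvlF hx
  | 19 => exact lvlF hx
  | 20 => exact lvlT hx
  | 21 => exact lvlT hx
  | 22 => exact lvlB1 hx
  | 23 => exact lvlB1 hx
  | 24 => exact lvlB1 hx
  | 25 => exact lvlB1 hx
  | 26 => exact lvlB2 hx
  | 27 => exact lvlB2 hx
  | 28 => exact lvlB2 hx
  | 29 => exact lvlB2 hx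
  | n + 30 => exact absurd hx (by simp [seg, outs])

/-- **Every name is defined at most once.** -/
theorem nodup_prog : (outs p.prog).Nodup :=
  nd_range (fun x => lvl x - 1) (fun i _ => nd_seg i) fun i _ x hx => by rw [lvl_seg i hx]; rfl

theorem lvl_tup_base {x : Nm} (hx : x ∈ p.base) : lvl x = 0 := by
  simp only [base, tup, List.mem_cons, List.mem_append, List.mem_map, List.not_mem_nil,
    or_false] at hx
  rcases hx with rfl | ⟨a, _, rfl⟩ | rfl | rfl | ⟨a, _, rfl⟩ | ⟨a, _, rfl⟩ | rfl | rfl <;> rfl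

/-- **The base names are not defined by the program.** -/
theorem base_not_out {x : Nm} (hx : x ∈ outs p.prog) : ¬ x ∈ p.base := by
  intro h
  obtain ⟨i, _, hx⟩ := mem_outs_range.1 hx
  have h1 := lvl_seg i hx
  have h2 := lvl_tup_base h
  omega

theorem lvl_le (x : Nm) : lvl x ≤ 30 := by
  cases x
  case car j => cases j <;> simp [lvl]
  case bor j => cases j <;> simp [lvl]
  all_goals (try cases ‹Bool›) <;> (try cases ‹Bool›) <;> simp [lvl]

/-- A name with its bounds is a base name or is defined by the program. -/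
theorem dom (x : Nm) (hx : p.bd x) : x ∈ p.base ∨ x ∈ outs p.prog := by
  rcases cov x hx with h | h
  · exact Or.inl h.2
  · refine Or.inr (mem_outs_range.2 ⟨lvl x - 1, ?_, h.2⟩)
    have := lvl_le x
    omega

end PP

end Vale.Agent.P330.H16
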