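import Vale.Agent.P330.H16.Top

/-!
# The content program is well-founded: arguments are defined before they are used
-/

set_option linter.unusedSectionVars false
set_option linter.unusedSimpArgs false

namespace Vale.Agent.P330.H16

open Finset

/-- The number (plus one) of the segment in which a name is defined. -/
def lvl : Nm → ℕ
  | .z | .t _ | .w _ | .P _ _ | .Q _ => 0
  | .one | .zero | .zd | .zc | .zb _ | .zz | .car 0 | .bor 0 => 1
  | .td _ | .tc _ | .tn _ => 2
  | .car (_ + 1) | .bor (_ + 1) | .tp _ | .tm _ | .hx _ _ | .hb _ _ | .pb _ | .tt _ | .tk _ => 3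
  | .t0n | .sw _ => 4
  | .f b _ | .T b _ | .Y b _ | .LY b _ | .hP b _ | .mP b _ | .nP b _ _ => 5 + b.toNat
  | .A1 b | .A2 b | .LA b | .B1 b | .B2 b | .LB b | .hQ b | .mQ b => 7 + b.toNat
  | .nQ b _ => 9 + b.toNat
  | .xo b | .i1 b | .i2 b | .v1 b | .v2 b | .v3 b | .v4 b | .v5 b | .v6 b | .v7 b | .V b | .pV b
  | .hw b | .c1 b | .c2 b | .c3 b | .c4 b => 11 + b.toNat
  | .g b _ | .px b _ _ | .pi b _ _ | .S b _ _ | .S' b _ _ | .u1 b _
  | .u2 b _ | .U b _ | .hU b _ | .SA b _ | .SB b _ | .an b _ | .e0 b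
  | .e1 b => 13 + b.toNat
  | .rv m b | .v m b | .wd m b | .wn m b | .Pd m b _ | .Pn m b _ | .q1 m b | .q2 m b | .q3 m b
  | .q4 m b | .q5 m b | .q6 m b | .Qn m b => 15 + 2 * m.toNat + b.toNat
  | .cf d | .cg d | .ce d | .cs d | .cm d _ | .cc d _ | .cgs d | .oz d => 19 + d.toNat
  | .x1 d _ | .x2 d _ | .x3 d _ | .ot d _ => 21 + d.toNat
  | .w1 d b | .w2 d b | .w3 d b | .ow d b | .Q1 d b | .Q2 d b | .Q3 d b | .oQ d b =>
    23 + 2 * d.toNat + b.toNat
  | .P1 d b _ | .P2 d b _ | .P3 d b _ | .oP d b _ => 27 + 2 * d.toNat + b.toNat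

namespace PP

variable {F : Type} [Field F] (p : PP F)

/-- The bounds of the indices. -/
def bd : Nm → Prop
  | .t j | .td j | .tc j | .tn j | .tp j | .tm j | .hx _ j | .hb _ j | .pb j | .tt j | .tk j =>
    j ≤ p.k
  | .car j | .bor j => j ≤ p.k + 1
  | .P _ s | .sw s | .T _ s | .Y _ s | .LY _ s | .hP _ s | .mP _ s | .u1 _ s | .u2 _ s | .U _ s
  | .hU _ s | .Pd _ _ s | .Pn _ _ s | .P1 _ _ s | .P2 _ _ s | .P3 _ _ s | .oP _ _ s => s < p.L
  | .f _ s | .g _ s => s ≤ p.L
  | .nP _ s j => s < p.L ∧ j < p.κ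
  | .nQ _ j => j < p.κ
  | .px _ s i | .pi _ s i | .S _ s i | .S' _ s i => s < p.L ∧ i < p.k
  | .SA _ j | .SB _ j => j < p.k
  | .an _ j => j < 2
  | .x1 _ j | .x2 _ j | .x3 _ j | .ot _ j => j ≤ p.k
  | _ => True

variable {p}

theorem mem_outs_nil {x : Nm} : x ∈ outs ([] : List (C F)) ↔ False := by simp [outs]

theorem mem_outs_cons {x : Nm} {c : C F} {l : List (C F)} :
    x ∈ outs (c :: l) ↔ x = c.out ∨ x ∈ outs l := by simp [outs]

theorem mem_outs_range {x : Nm} {n : ℕ} {f : ℕ → List (C F)} :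
    x ∈ outs ((List.range n).flatMap f) ↔ ∃ i < n, x ∈ outs (f i) := by
  rw [mem_outs_flatMap]; simp

theorem seg_R (b : Bool) : p.seg (5 + b.toNat - 1) = p.prR b := by cases b <;> rfl
theorem seg_G1 (b : Bool) : p.seg (7 + b.toNat - 1) = prG1 b := by cases b <;> rfl
theorem seg_G2 (b : Bool) : p.seg (9 + b.toNat - 1) = p.prG2 b := by cases b <;> rfl
theorem seg_V (b : Bool) : p.seg (11 + b.toNat - 1) = p.prV b := by cases b <;> rfl
theorem seg_U (b : Bool) : p.seg (13 + b.toNat - 1) = p.prU b := by cases b <;> rfl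
theorem seg_N (m b : Bool) : p.seg (15 + 2 * m.toNat + b.toNat - 1) = p.prN m b := by
  cases m <;> cases b <;> rfl
theorem seg_F (b : Bool) : p.seg (19 + b.toNat - 1) = p.prF b := by cases b <;> rfl
theorem seg_T (b : Bool) : p.seg (21 + b.toNat - 1) = p.prT b := by cases b <;> rfl
theorem seg_B1 (m b : Bool) : p.seg (23 + 2 * m.toNat + b.toNat - 1) = prB1 m b := by
  cases m <;> cases b <;> rfl
theorem seg_B2 (m b : Bool) : p.seg (27 + 2 * m.toNat + b.toNat - 1) = p.prB2 m b := by
  cases m <;> cases b <;> rfl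

theorem seg_1 : p.seg (1 - 1) = prS1 := rfl
theorem seg_2 : p.seg (2 - 1) = p.prS2 := rfl
theorem seg_3 : p.seg (3 - 1) = p.prS3 := rfl
theorem seg_4 : p.seg (4 - 1) = p.prS4 := rfl

/-- The coverage statement for a name. -/
def Cov (p : PP F) (x : Nm) : Prop := p.bd x → (lvl x = 0 ∧ x ∈ p.base) ∨
    (0 < lvl x ∧ x ∈ outs (p.seg (lvl x - 1)))

theorem cov_z : Cov p .z := by intro hx; left; simp [lvl, base, tup]
theorem cov_t (j : ℕ) : Cov p (.t j) := by intro hx; left; simp [lvl, base, tup, bd] at *; omega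
theorem cov_w (b : Bool) : Cov p (.w b) := by intro hx; left; cases b <;> simp [lvl, base, tup]
theorem cov_P (b : Bool) (s : ℕ) : Cov p (.P b s) := by
  intro hx; left; cases b <;> simp [lvl, base, tup, bd] at * <;> exact hx
theorem cov_Q (b : Bool) : Cov p (.Q b) := by intro hx; left; cases b <;> simp [lvl, base, tup]

theorem cov_car (j : ℕ) : Cov p (.car j) := by
  intro hx
  right
  cases j <;> refine ⟨by simp only [lvl]; omega, ?_⟩ <;>
    simp only [lvl, bd, seg_1, seg_2, seg_3, seg_4, seg_R, seg_G1, seg_G2, seg_V, seg_U, seg_N, seg_F,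
    seg_T, seg_B1, seg_B2] at * <;>
    simp [mem_outs_nil, mem_outs_cons, mem_outs_append, mem_outs_range, prS1, prS2, prS3, prS4, prR,
    prR1, prR2, prG1, prG2, prV, prU, prD, prUs, prU1, prU2, prU3, prA, prE, prN, prN1, prN2, prN3,
    prF, prT, prB1, prB2, add]
  all_goals omega

theorem cov_bor (j : ℕ) : Cov p (.bor j) := by
  intro hx
  right
  cases j <;> refine ⟨by simp only [lvl]; omega, ?_⟩ <;>
    simp only [lvl, bd, seg_1, seg_2, seg_3, seg_4, seg_R, seg_G1, seg_G2, seg_V, seg_U, seg_N, seg_F,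
    seg_T, seg_B1, seg_B2] at * <;>
    simp [mem_outs_nil, mem_outs_cons, mem_outs_append, mem_outs_range, prS1, prS2, prS3, prS4, prR,
    prR1, prR2, prG1, prG2, prV, prU, prD, prUs, prU1, prU2, prU3, prA, prE, prN, prN1, prN2, prN3,
    prF, prT, prB1, prB2, add]
  all_goals omega

theorem cov_f (b : Bool) (j : ℕ) : Cov p (.f b j) := by
  intro hx
  right
  cases j <;> refine ⟨by simp only [lvl]; omega, ?_⟩ <;>
    simp only [lvl, bd, seg_1, seg_2, seg_3, seg_4, seg_R, seg_G1, seg_G2, seg_V, seg_U, seg_N, seg_F,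
    seg_T, seg_B1, seg_B2] at * <;>
    simp [mem_outs_nil, mem_outs_cons, mem_outs_append, mem_outs_range, prS1, prS2, prS3, prS4, prR,
    prR1, prR2, prG1, prG2, prV, prU, prD, prUs, prU1, prU2, prU3, prA, prE, prN, prN1, prN2, prN3,
    prF, prT, prB1, prB2, add]
  all_goals omega

theorem cov_g (b : Bool) (j : ℕ) : Cov p (.g b j) := by
  intro hx
  right
  cases j <;> refine ⟨by simp only [lvl]; omega, ?_⟩ <;>
    simp only [lvl, bd, seg_1, seg_2, seg_3, seg_4, seg_R, seg_G1, seg_G2, seg_V, seg_U, seg_N, seg_F,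
    seg_T, seg_B1, seg_B2] at * <;>
    simp [mem_outs_nil, mem_outs_cons, mem_outs_append, mem_outs_range, prS1, prS2, prS3, prS4, prR,
    prR1, prR2, prG1, prG2, prV, prU, prD, prUs, prU1, prU2, prU3, prA, prE, prN, prN1, prN2, prN3,
    prF, prT, prB1, prB2, add]
  all_goals omega

theorem cov_zb (b : Bool) : Cov p (.zb b) := by
  intro hx
  right
  cases b <;> exact ⟨by simp [lvl], by simp [lvl, seg, outs, prS1, add]⟩

theorem cov_hx (b : Bool) (j : ℕ) : Cov p (.hx b j) := by
  intro hx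
  right
  refine ⟨by simp only [lvl]; omega, ?_⟩
  simp only [lvl, bd, seg_3] at *
  cases b <;> simp [mem_outs_nil, mem_outs_cons, mem_outs_append, mem_outs_range, prS3, add] <;>
    omega

theorem cov_hb (b : Bool) (j : ℕ) : Cov p (.hb b j) := by
  intro hx
  right
  refine ⟨by simp only [lvl]; omega, ?_⟩
  simp only [lvl, bd, seg_3] at *
  cases b <;> simp [mem_outs_nil, mem_outs_cons, mem_outs_append, mem_outs_range, prS3, add] <;>
    omega

theorem cov_cm (d b : Bool) : Cov p (.cm d b) := by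
  intro hx
  right
  refine ⟨by simp only [lvl]; omega, ?_⟩
  simp only [lvl, seg_F]
  cases d <;> cases b <;> simp [mem_outs_cons, prF, add]

theorem cov_cc (d b : Bool) : Cov p (.cc d b) := by
  intro hx
  right
  refine ⟨by simp only [lvl]; omega, ?_⟩
  simp only [lvl, seg_F]
  cases d <;> cases b <;> simp [mem_outs_cons, prF, add]

set_option maxHeartbeats 4000000 in
theorem cov (x : Nm) : Cov p x := by
  cases x
  case z => exact cov_z
  case t j => exact cov_t j
  case w b => exact cov_w b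
  case P b s => exact cov_P b s
  case Q b => exact cov_Q b
  case car j => exact cov_car j
  case bor j => exact cov_bor j
  case f b j => exact cov_f b j
  case g b j => exact cov_g b j
  case zb b => exact cov_zb b
  case hx b j => exact cov_hx b j
  case hb b j => exact cov_hb b j
  case cm d b => exact cov_cm d b
  case cc d b => exact cov_cc d b
  all_goals intro hx
  all_goals right
  all_goals refine ⟨by simp only [lvl]; omega, ?_⟩
  all_goals simp only [lvl, bd, seg_1, seg_2, seg_3, seg_4, seg_R, seg_G1, seg_G2, seg_V, seg_U, seg_N, seg_F,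
    seg_T, seg_B1, seg_B2] at hx ⊢
  all_goals simp [mem_outs_nil, mem_outs_cons, mem_outs_append, mem_outs_range, prS1, prS2, prS3, prS4, prR,
    prR1, prR2, prG1, prG2, prV, prU, prD, prUs, prU1, prU2, prU3, prA, prE, prN, prN1, prN2, prN3,
    prF, prT, prB1, prB2, add]
  all_goals omega

end PP

end Vale.Agent.P330.H16
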