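import Vale.Agent.P330.H16.TopWF

/-!
# The segments of the content program are well-founded
-/

set_option linter.unusedSectionVars false
set_option linter.unusedSimpArgs false

namespace Vale.Agent.P330.H16

open Finset

namespace PP

variable {F : Type} [Field F] (p : PP F)

/-- The names of the segments `< n` and the base names. -/
def Df (n : ℕ) (x : Nm) : Prop := lvl x ≤ n ∧ p.bd x

variable {p}

theorem Df.mono {n n' : ℕ} (h : n ≤ n') {x : Nm} (hx : p.Df n x) : p.Df n' x :=
  ⟨hx.1.trans h, hx.2⟩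

theorem df_ab (m : Bool) {j : ℕ} (hj : j ≤ p.k) {n : ℕ} (hn : 3 ≤ n) :
    p.Df n (ab m j) := by
  cases m <;> simp [Df, ab, lvl, bd] <;> omega

theorem wf_cons {D : Nm → Prop} {c : C F} {l : List (C F)} :
    WF D (c :: l) ↔ (∀ a ∈ c.args, D a) ∧ WF (fun x => D x ∨ x = c.out) l := Iff.rfl

theorem wf_nil {D : Nm → Prop} : WF D ([] : List (C F)) ↔ True := Iff.rfl

theorem forall_mem_ite {c : Prop} [Decidable c] {l l' : List Nm} {D : Nm → Prop} :
    (∀ a ∈ (if c then l else l'), D a) ↔ (∀ a ∈ l, c → D a) ∧ (∀ a ∈ l', ¬ c → D a) := by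
  by_cases h : c <;> simp [h]

theorem wf1 : WF (p.Df 0) (prS1 : List (C F)) := by
  simp [prS1, wf_cons, wf_nil, add, Df, lvl, bd]

theorem wf2 : WF (p.Df 1) p.prS2 := by
  refine WF.range fun i hi => ?_
  have hi : i ≤ p.k := by omega
  simp [wf_cons, wf_nil, add, Df, lvl, bd, hi]

theorem wf_range {D : Nm → Prop} {f : ℕ → List (C F)} {n : ℕ} (I : ℕ → Nm → Prop)
    (h0 : ∀ x, I 0 x → D x) (h1 : ∀ i < n, ∀ x, I (i + 1) x → I i x ∨ x ∈ outs (f i))
    (h2 : ∀ i < n, WF (I i) (f i)) : WF D ((List.range n).flatMap f) := by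
  refine WF.range fun i hi => (h2 i hi).mono ?_
  have key : ∀ m ≤ i, ∀ x, I m x → D x ∨ ∃ j < m, x ∈ outs (f j) := by
    intro m
    induction m with
    | zero => exact fun _ x hx => Or.inl (h0 x hx)
    | succ m ih =>
      intro hm x hx
      rcases h1 m (by omega) x hx with hx | hx
      · rcases ih (by omega) x hx with hx | ⟨j, hj, hx⟩
        · exact Or.inl hx
        · exact Or.inr ⟨j, by omega, hx⟩
      · exact Or.inr ⟨m, by omega, hx⟩
  exact key i le_rfl

theorem wf3 : WF (p.Df 2) p.prS3 := by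
  refine wf_range (fun i x => p.Df 2 x ∨ x = .car i ∨ x = .bor i) ?_ ?_ ?_
  · rintro x (hx | rfl | rfl)
    · exact hx
    · simp [Df, lvl, bd]
    · simp [Df, lvl, bd]
  · rintro i hi x (hx | rfl | rfl)
    · exact Or.inl (Or.inl hx)
    · right; simp [mem_outs_cons]
    · right; simp [mem_outs_cons]
  · intro i hi
    have hi : i ≤ p.k := by omega
    simp only [wf_cons, wf_nil, add, forall_mem_ite, List.forall_mem_cons]
    simp [Df, lvl, bd, hi]

theorem wf4 : WF (p.Df 3) p.prS4 := by
  refine ⟨?_, WF.range fun i hi => ?_⟩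
  · simp [add, Df, lvl, bd]
  · simp [wf_cons, wf_nil]

theorem wfR (b : Bool) : WF (p.Df (4 + b.toNat)) (p.prR b) := by
  refine ⟨?_, ?_⟩
  · simp [add, Df, lvl, bd]
  refine wf_range (fun i x => p.Df (4 + b.toNat) x ∨ x = .f b i) ?_ ?_ ?_
  · rintro x (hx | rfl)
    · exact Or.inl hx
    · exact Or.inr rfl
  · rintro i hi x (hx | rfl)
    · exact Or.inl (Or.inl hx)
    · right; simp [mem_outs_append, mem_outs_cons, prR1, add]
  · intro i hi
    refine WF.append ?_ (WF.range fun j hj => ?_)
    · simp [prR1, wf_cons, wf_nil, add, Df, lvl, bd, hi]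
    · simp [wf_cons, wf_nil, prR1, add, outs]

theorem wfG1 (b : Bool) : WF (p.Df (6 + b.toNat)) (prG1 b : List (C F)) := by
  simp [prG1, wf_cons, wf_nil, add, Df, lvl, bd]

theorem wfG2 (b : Bool) : WF (p.Df (8 + b.toNat)) (p.prG2 b) := by
  refine WF.range fun j hj => ?_
  simp [wf_cons, wf_nil, Df, lvl, bd]

theorem wfV (b : Bool) : WF (p.Df (10 + b.toNat)) (p.prV b) := by
  simp only [prV, wf_cons, wf_nil, add, List.forall_mem_cons, List.forall_mem_map,
    List.mem_range, List.forall_mem_nil]
  have h1 : ∀ i, i < p.k + 1 → p.Df (10 + b.toNat) (.pb i) := by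
    intro i hi
    simp [Df, lvl, bd]; omega
  have h2 : ∀ i, i < p.k + 1 → p.Df (10 + b.toNat) (.hb b i) := by
    intro i hi
    simp [Df, lvl, bd]; omega
  have h3 : p.Df (10 + b.toNat) (.f b p.L) := by simp [Df, lvl, bd]
  have h4 : ∀ b', p.Df (10 + b.toNat) (.w b') := by simp [Df, lvl, bd]
  have h5 : ∀ b', p.Df (10 + b.toNat) (.zb b') := by
    intro b'; simp [Df, lvl, bd]; omega
  have h6 : p.Df (10 + b.toNat) .one := by
    simp [Df, lvl, bd]; omega
  have h7 : p.Df (10 + b.toNat) (.hQ b) := by simp [Df, lvl, bd]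
  have h8 : p.Df (10 + b.toNat) (.A1 b) := by simp [Df, lvl, bd]
  simp +contextual only [h1, h2, h3, h4, h5, h6, h7, h8, true_and, and_true, true_or, or_true,
    implies_true, List.not_mem_nil, false_implies]

theorem wfD (m : Bool) : WF (p.Df (12 + m.toNat)) (p.prD m) := by
  simp only [prD, wf_cons, wf_nil, List.forall_mem_cons, List.forall_mem_map, List.mem_range,
    and_true]
  refine ⟨by simp [Df, lvl, bd]; omega, fun j hj => df_ab m (by omega) (by omega)⟩

theorem wfUs (m : Bool) : WF (fun x => p.Df (12 + m.toNat) x ∨ x = .g m 0)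
    ((List.range p.L).flatMap (p.prUs m)) := by
  refine wf_range (fun i x => p.Df (12 + m.toNat) x ∨ x = .g m i) ?_ ?_ ?_
  · exact fun x hx => hx
  · rintro i hi x (hx | rfl)
    · exact Or.inl (Or.inl hx)
    · right; simp [mem_outs_append, mem_outs_cons, prUs, prU1, prU2, prU3, add]
  · intro i hi
    have h1 : p.Df (12 + m.toNat) .one := by simp [Df, lvl, bd]; omega
    have h2 : p.Df (12 + m.toNat) (.sw i) := by simp [Df, lvl, bd, hi]; omega
    refine WF.append (WF.range fun j hj => ?_) (WF.append (WF.range fun j hj => ?_) ?_)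
    · simp [wf_cons, wf_nil]
    · simp only [wf_cons, wf_nil, List.forall_mem_cons, List.forall_mem_map, List.mem_range]
      refine ⟨fun a ha => ?_, ?_⟩
      · left; right
        simp only [prU1, mem_outs_range, mem_outs_cons]
        exact ⟨a, ha, Or.inr (Or.inl rfl)⟩
      · simp [h1]
    · simp only [prU3, add, wf_cons, wf_nil, List.forall_mem_cons, List.forall_mem_map,
        List.mem_range]
      have h3 : ∀ j < p.k, Nm.S m i j ∈ outs (p.prU2 m i) := by
        intro j hj
        simp only [prU2, mem_outs_range, mem_outs_cons]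
        exact ⟨j, hj, Or.inl rfl⟩
      have h4 : ∀ j < p.k, Nm.S' m i j ∈ outs (p.prU2 m i) := by
        intro j hj
        simp only [prU2, mem_outs_range, mem_outs_cons]
        exact ⟨j, hj, Or.inr (Or.inl rfl)⟩
      simp +contextual only [h1, h2, h3, h4, true_and, and_true, true_or, or_true,
        implies_true, List.not_mem_nil, false_implies]

theorem wfA (m : Bool) : WF (p.Df (12 + m.toNat)) (p.prA m) := by
  refine WF.range fun j hj => ?_
  have h1 : p.Df (12 + m.toNat) .one := by simp [Df, lvl, bd]; omega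
  simp only [wf_cons, wf_nil, List.forall_mem_cons, List.forall_mem_map, List.mem_range]
  refine ⟨⟨Or.inl h1, fun a ha => Or.inl (df_ab m (by omega) (by omega))⟩, ?_⟩
  simp [h1]

theorem wfE (hk : 1 ≤ p.k) (m : Bool) : WF (p.Df (12 + m.toNat)) (prE m : List (C F)) := by
  have h1 : p.Df (12 + m.toNat) .one := by simp [Df, lvl, bd]; omega
  have h2 : p.Df (12 + m.toNat) (ab m 0) := df_ab m (by omega) (by omega)
  have h3 : p.Df (12 + m.toNat) (ab m 1) := df_ab m hk (by omega)
  simp [prE, add, wf_cons, wf_nil, h1, h2, h3]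

theorem wfU (hk : 1 ≤ p.k) (m : Bool) : WF (p.Df (12 + m.toNat)) (p.prU m) := by
  refine WF.append (wfD m) (WF.append ?_ (WF.append ?_ ?_))
  · refine (wfUs m).mono fun x hx => ?_
    rcases hx with hx | rfl
    · exact Or.inl hx
    · right; simp [prD, outs]
  · exact (wfA m).mono fun x hx => Or.inl (Or.inl hx)
  · exact (wfE hk m).mono fun x hx => Or.inl (Or.inl (Or.inl hx))

theorem wfN (m b : Bool) : WF (p.Df (14 + 2 * m.toNat + b.toNat)) (p.prN m b) := by
  have h1 : ∀ j < p.k, p.Df (14 + 2 * m.toNat + b.toNat) (ab m j) := fun j hj =>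
    df_ab m (by omega) (by omega)
  have h2 : p.Df (14 + 2 * m.toNat + b.toNat) (.V b) := by simp [Df, lvl, bd]; omega
  have h3 : p.Df (14 + 2 * m.toNat + b.toNat) (.g m 0) := by simp [Df, lvl, bd]; omega
  have h4 : p.Df (14 + 2 * m.toNat + b.toNat) (.w b) := by simp [Df, lvl, bd]
  have h5 : ∀ j < p.L, p.Df (14 + 2 * m.toNat + b.toNat) (.U m j) := by
    intro j hj; simp [Df, lvl, bd, hj]; omega
  have h6 : ∀ j < p.L, p.Df (14 + 2 * m.toNat + b.toNat) (.P b j) := by
    intro j hj; simp [Df, lvl, bd, hj]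
  have h7 : p.Df (14 + 2 * m.toNat + b.toNat) (.LA b) := by simp [Df, lvl, bd]; omega
  have h8 : p.Df (14 + 2 * m.toNat + b.toNat) (.LB b) := by simp [Df, lvl, bd]; omega
  have h9 : p.Df (14 + 2 * m.toNat + b.toNat) (.Q b) := by simp [Df, lvl, bd]
  have h10 : p.Df (14 + 2 * m.toNat + b.toNat) (.e0 m) := by simp [Df, lvl, bd]; omega
  have h11 : p.Df (14 + 2 * m.toNat + b.toNat) (.e1 m) := by simp [Df, lvl, bd]; omega
  have h12 : ∀ j < p.k, p.Df (14 + 2 * m.toNat + b.toNat) (.SA m j) := by
    intro j hj; simp [Df, lvl, bd, hj]; omega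
  have h13 : ∀ j < p.k, p.Df (14 + 2 * m.toNat + b.toNat) (.SB m j) := by
    intro j hj; simp [Df, lvl, bd, hj]; omega
  refine WF.append ?_ (WF.append (WF.range fun j hj => ?_) ?_)
  · simp only [prN1, add, wf_cons, wf_nil, List.forall_mem_cons, List.forall_mem_map,
      List.mem_range]
    simp +contextual only [h1, h2, h3, h4, true_and, and_true, true_or, or_true,
      implies_true, List.not_mem_nil, false_implies]
  · have h : Nm.v m b ∈ outs (p.prN1 m b) := by simp [prN1, mem_outs_cons]
    simp [add, wf_cons, wf_nil, h, h5 j hj, h6 j hj]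
  · have h : Nm.v m b ∈ outs (p.prN1 m b) := by simp [prN1, mem_outs_cons]
    simp only [prN3, add, wf_cons, wf_nil, List.forall_mem_cons, List.forall_mem_map,
      List.mem_range]
    simp +contextual only [h, h7, h8, h9, h10, h11, h12, h13, true_and, and_true, true_or, or_true,
      implies_true, List.not_mem_nil, false_implies]

theorem wfF (d : Bool) : WF (p.Df (18 + d.toNat)) (p.prF d) := by
  have h1 : ∀ b, p.Df (18 + d.toNat) (.zb b) := by intro b; simp [Df, lvl, bd]; omega
  have h2 : p.Df (18 + d.toNat) (.tn p.k) := by simp [Df, lvl, bd]; omega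
  have h3 : p.Df (18 + d.toNat) (.tc p.k) := by simp [Df, lvl, bd]; omega
  have h4 : p.Df (18 + d.toNat) .t0n := by simp [Df, lvl, bd]; omega
  have h5 : p.Df (18 + d.toNat) (.bor (p.k + 1)) := by simp [Df, lvl, bd]; omega
  have h6 : p.Df (18 + d.toNat) .zc := by simp [Df, lvl, bd]; omega
  simp only [prF, add, wf_cons, wf_nil, List.forall_mem_cons, List.forall_mem_map,
      List.mem_range]
  simp only [h1, h2, h3, h4, h5, h6, true_and, and_true, true_or, or_true,
      implies_true, List.not_mem_nil, false_implies]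

theorem wfT (d : Bool) : WF (p.Df (20 + d.toNat)) (p.prT d) := by
  refine WF.range fun j hj => ?_
  have hj : j ≤ p.k := by omega
  have h1 : p.Df (20 + d.toNat) (.cf d) := by simp [Df, lvl, bd]
  have h2 : p.Df (20 + d.toNat) (.cgs d) := by simp [Df, lvl, bd]
  have h3 : p.Df (20 + d.toNat) (.ce d) := by simp [Df, lvl, bd]
  have h4 : p.Df (20 + d.toNat) (.tp j) := by simp [Df, lvl, bd, hj]; omega
  have h5 : p.Df (20 + d.toNat) (.tc j) := by simp [Df, lvl, bd, hj]; omega
  have h6 : p.Df (20 + d.toNat) (.tm j) := by simp [Df, lvl, bd, hj]; omega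
  simp only [add, wf_cons, wf_nil, List.forall_mem_cons, List.forall_mem_map,
      List.mem_range]
  simp only [h1, h2, h3, h4, h5, h6, true_and, and_true, true_or, or_true,
      implies_true, List.not_mem_nil, false_implies]

theorem wfB1 (d b : Bool) : WF (p.Df (22 + 2 * d.toNat + b.toNat)) (prB1 d b : List (C F)) := by
  have h1 : p.Df (22 + 2 * d.toNat + b.toNat) (.cm d b) := by
    cases d <;> cases b <;> simp [Df, lvl, bd]
  have h2 : p.Df (22 + 2 * d.toNat + b.toNat) (.cc d b) := by
    cases d <;> cases b <;> simp [Df, lvl, bd]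
  have h3 : p.Df (22 + 2 * d.toNat + b.toNat) (.cs d) := by
    cases d <;> cases b <;> simp [Df, lvl, bd]
  have h4 : ∀ b', p.Df (22 + 2 * d.toNat + b.toNat) (.w b') := by simp [Df, lvl, bd]
  have h5 : ∀ b', p.Df (22 + 2 * d.toNat + b.toNat) (.Q b') := by simp [Df, lvl, bd]
  have h6 : p.Df (22 + 2 * d.toNat + b.toNat) (.wn (b == d) b) := by
    cases d <;> cases b <;> simp [Df, lvl, bd]
  have h7 : p.Df (22 + 2 * d.toNat + b.toNat) (.Qn (b == d) b) := by
    cases d <;> cases b <;> simp [Df, lvl, bd]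
  simp only [prB1, add, wf_cons, wf_nil, List.forall_mem_cons, List.forall_mem_map,
      List.mem_range]
  simp only [h1, h2, h3, h4, h5, h6, h7, true_and, and_true, true_or, or_true,
      implies_true, List.not_mem_nil, false_implies]

theorem wfB2 (d b : Bool) : WF (p.Df (26 + 2 * d.toNat + b.toNat)) (p.prB2 d b) := by
  refine WF.range fun j hj => ?_
  have h1 : p.Df (26 + 2 * d.toNat + b.toNat) (.cm d b) := by
    cases d <;> cases b <;> simp [Df, lvl, bd]
  have h2 : p.Df (26 + 2 * d.toNat + b.toNat) (.cc d b) := by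
    cases d <;> cases b <;> simp [Df, lvl, bd]
  have h3 : p.Df (26 + 2 * d.toNat + b.toNat) (.cs d) := by
    cases d <;> cases b <;> simp [Df, lvl, bd]
  have h4 : ∀ b', p.Df (26 + 2 * d.toNat + b.toNat) (.P b' j) := by simp [Df, lvl, bd, hj]
  have h6 : p.Df (26 + 2 * d.toNat + b.toNat) (.Pn (b == d) b j) := by
    cases d <;> cases b <;> simp [Df, lvl, bd, hj]
  simp only [add, wf_cons, wf_nil, List.forall_mem_cons, List.forall_mem_map,
      List.mem_range]
  simp only [h1, h2, h3, h4, h6, true_and, and_true, true_or, or_true,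
      implies_true, List.not_mem_nil, false_implies]

theorem wf_seg (hk : 1 ≤ p.k) (i : ℕ) : WF (p.Df i) (p.seg i) := by
  match i with
  | 0 => exact wf1
  | 1 => exact wf2
  | 2 => exact wf3
  | 3 => exact wf4
  | 4 => exact wfR false
  | 5 => exact wfR true
  | 6 => exact wfG1 false
  | 7 => exact wfG1 true
  | 8 => exact wfG2 false
  | 9 => exact wfG2 true
  | 10 => exact wfV false
  | 11 => exact wfV true
  | 12 => exact wfU hk false
  | 13 => exact wfU hk true
  | 14 => exact wfN false false
  | 15 => exact wfN false true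
  | 16 => exact wfN true false
  | 17 => exact wfN true true
  | 18 => exact wfF false
  | 19 => exact wfF true
  | 20 => exact wfT false
  | 21 => exact wfT true
  | 22 => exact wfB1 false false
  | 23 => exact wfB1 false true
  | 24 => exact wfB1 true false
  | 25 => exact wfB1 true true
  | 26 => exact wfB2 false false
  | 27 => exact wfB2 false true
  | 28 => exact wfB2 true false
  | 29 => exact wfB2 true true
  | n + 30 => trivial

/-- **The program is well-founded.** -/
theorem wf_prog (hk : 1 ≤ p.k) : WF (fun x => x ∈ p.base) p.prog := by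
  refine WF.range fun i _ => (wf_seg hk i).mono fun x hx => ?_
  rcases cov x hx.2 with h | h
  · exact Or.inl h.2
  · exact Or.inr ⟨lvl x - 1, by have := hx.1; omega, h.2⟩

end PP

end Vale.Agent.P330.H16
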